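import Mathlib

/-! # P097 / H779 / Disc : the derivation `z d/dz` of Laurent series -/

set_option linter.all false

open HahnSeries

namespace Vale.Agent.P097.H779.Disc

abbrev K : Type := LaurentSeries ℂ

/-- `z d/dz` -/
noncomputable def Dz (f : K) : K where
  coeff n := (n : ℂ) * f.coeff n
  isPWO_support' := f.isPWO_support.mono fun n hn => by
    rw [Function.mem_support] at hn
    rw [HahnSeries.mem_support]
    exact right_ne_zero_of_mul hn

@[simp] theorem Dz_coeff (f : K) (n : ℤ) : (Dz f).coeff n = (n : ℂ) * f.coeff n := rfl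

theorem Dz_add (f g : K) : Dz (f + g) = Dz f + Dz g := by
  ext n
  simp [mul_add]

theorem Dz_C_mul (c : ℂ) (f : K) : Dz (C c * f) = C c * Dz f := by
  rw [C_mul_eq_smul, C_mul_eq_smul]
  ext n
  rw [Dz_coeff, coeff_smul, coeff_smul, Dz_coeff, smul_eq_mul, smul_eq_mul]
  ring

theorem Dz_support (f : K) : (Dz f).support ⊆ f.support := fun n hn => by
  rw [HahnSeries.mem_support] at hn ⊢
  exact right_ne_zero_of_mul hn

theorem Dz_mul (f g : K) : Dz (f * g) = Dz f * g + f * Dz g := by
  ext n
  rw [Dz_coeff, coeff_add, coeff_mul,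
    coeff_mul_left' f.isPWO_support (Dz_support f), coeff_mul_right' g.isPWO_support (Dz_support g),
    Finset.mul_sum, ← Finset.sum_add_distrib]
  refine Finset.sum_congr rfl fun ij hij => ?_
  rw [Finset.mem_addAntidiagonal] at hij
  rw [Dz_coeff, Dz_coeff, ← hij.2.2]
  push_cast
  ring

theorem Dz_C (c : ℂ) : Dz (C c) = 0 := by
  ext n
  rw [Dz_coeff, coeff_zero, C_apply, coeff_single]
  split_ifs with h
  · simp [h]
  · simp

theorem Dz_one : Dz 1 = 0 := by
  have := Dz_C 1
  simpa using this

theorem Dz_zero : Dz 0 = 0 := by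
  ext n
  simp

theorem Dz_neg (f : K) : Dz (-f) = -Dz f := by
  ext n
  simp

theorem Dz_sub (f g : K) : Dz (f - g) = Dz f - Dz g := by
  ext n
  simp [mul_sub]

theorem Dz_pow (f : K) (n : ℕ) : f * Dz (f ^ n) = (n : K) * f ^ n * Dz f := by
  induction n with
  | zero => simp [Dz_one]
  | succ n ih =>
    rw [pow_succ, Dz_mul, mul_add, ← mul_assoc, ih]
    push_cast
    ring

theorem Dz_inv (f : K) (hf : f ≠ 0) : Dz f⁻¹ = - (Dz f) / f ^ 2 := by
  have h := Dz_mul f f⁻¹
  rw [mul_inv_cancel₀ hf, Dz_one] at h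
  field_simp
  field_simp at h
  linear_combination -h

theorem Dz_eq_zero {f : K} (h : Dz f = 0) : ∃ c : ℂ, f = C c := by
  refine ⟨f.coeff 0, ?_⟩
  ext n
  rw [C_apply, coeff_single]
  split_ifs with hn
  · rw [hn]
  · have h1 := congrArg (fun x => x.coeff n) h
    simp only [Dz_coeff, coeff_zero] at h1
    rcases mul_eq_zero.1 h1 with h2 | h2
    · exact absurd (by exact_mod_cast h2) hn
    · exact h2

/-- The logarithmic derivative has constant term equal to the order. -/
theorem dlog_order {f w : K} (hf : f ≠ 0) (h : Dz f = f * w) (hw : w.order = 0) (hw0 : w ≠ 0) :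
    (f.order : ℂ) = w.coeff 0 := by
  have h1 := congrArg (fun x => x.coeff f.order) h
  simp only [Dz_coeff] at h1
  have h2 := coeff_mul_order_add_order f w
  rw [hw, add_zero] at h2
  rw [h2] at h1
  have h3 : f.leadingCoeff = f.coeff f.order := by
    rw [HahnSeries.leadingCoeff_eq]
  have h4 : w.leadingCoeff = w.coeff 0 := by
    rw [HahnSeries.leadingCoeff_eq, hw]
  rw [h3, h4, mul_comm] at h1
  exact mul_left_cancel₀ (by rw [← h3]; exact HahnSeries.leadingCoeff_ne_zero.2 hf) h1

end Vale.Agent.P097.H779.Disc
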