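import Vale.Agent.P097.H779.Disc.L67

/-! # P097 / H779 / Disc : from `y^2 = V^2 + α V + β` to the ellipse -/

set_option linter.all false

open HahnSeries

namespace Vale.Agent.P097.H779.Disc

theorem FIN (V y : K) (hV : V.order = -1) (hy : y.order = -1)
    (hVl : V.leadingCoeff = 1 / 2) (hyl : y.leadingCoeff = 1 / 2)
    (hR : Dz V + Dz y = -(2 * y)) (α β : ℂ) (h : y ^ 2 = V ^ 2 + C α * V + C β) :
    ∃ c b : ℂ, ((single (1 : ℤ) (1 : ℂ) : K) * (V + y) + C c * (single (1 : ℤ) (1 : ℂ) : K)) ^ 2 =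
      1 + C b * (single (2 : ℤ) (1 : ℂ) : K) := by
  set z : K := single (1 : ℤ) (1 : ℂ) with hz
  have hz2 : (single (2 : ℤ) (1 : ℂ) : K) = z ^ 2 := by
    rw [hz, sq, single_mul_single]
    norm_num
  have hz0 : z ≠ 0 := single_ne_zero one_ne_zero
  have hDz : Dz z = z := by
    ext n
    rw [Dz_coeff, hz, coeff_single]
    split_ifs with h
    · rw [h]; simp
    · simp
  set a : ℂ := α / 2 with ha
  set W : K := V + C a with hW
  set w : K := W + y with hw
  set c' : ℂ := β - a ^ 2 with hc'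
  have h2 : (C (2 : ℂ) : K) = 2 := map_ofNat C 2
  have hα : (C α : K) = 2 * C a := by
    rw [← h2, ← map_mul, ha]
    congr 1
    ring
  have e1 : y ^ 2 = W ^ 2 + C c' := by
    rw [h, hW, hc', map_sub, map_pow, hα]
    ring
  have hDw : Dz w = -(2 * y) := by
    rw [hw, hW, Dz_add, Dz_add, Dz_C, ← hR]
    ring
  -- `w` is not zero
  have hco : ∀ f : K, f.order = -1 → f.leadingCoeff = 1 / 2 → f.coeff (-1) = 1 / 2 ∧
      ∀ n : ℤ, n < -1 → f.coeff n = 0 := by
    intro f h1 h2
    refine ⟨?_, fun n hn => HahnSeries.coeff_eq_zero_of_lt_order (by rw [h1]; exact hn)⟩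
    rw [← h2, HahnSeries.leadingCoeff_eq, h1]
  obtain ⟨hV1, hV2⟩ := hco V hV hVl
  obtain ⟨hy1, hy2⟩ := hco y hy hyl
  have hw1 : w.coeff (-1) = 1 := by
    rw [hw, hW, coeff_add, coeff_add, hV1, hy1, C_apply, coeff_single_of_ne (by norm_num)]
    norm_num
  have hw2 : ∀ n : ℤ, n < -1 → w.coeff n = 0 := by
    intro n hn
    rw [hw, hW, coeff_add, coeff_add, hV2 n hn, hy2 n hn, C_apply,
      coeff_single_of_ne (by omega)]
    norm_num
  have hw0 : w ≠ 0 := by
    intro h
    rw [h] at hw1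
    simp at hw1
  have e2 : w * (y - W) = C c' := by
    rw [hw]
    linear_combination e1
  have e3 : w * Dz w = -(w ^ 2 + C c') := by
    rw [hDw, ← e2, hw]
    ring
  have e4 : Dz (z ^ 2 * (w ^ 2 + C c')) = 0 := by
    rw [sq z, sq w, Dz_mul, Dz_mul, Dz_add, Dz_mul, Dz_C, hDz]
    linear_combination 2 * z ^ 2 * e3
  obtain ⟨κ, hκ⟩ := Dz_eq_zero e4
  -- the order of `w`
  have hwo : w.order = -1 := by
    apply le_antisymm
    · apply HahnSeries.order_le_of_coeff_ne_zero
      rw [hw1]; norm_num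
    · by_contra h
      push Not at h
      exact (mt HahnSeries.coeff_order_eq_zero.1 hw0) (hw2 _ h)
  have hzw : (z * w).order = 0 := by
    rw [HahnSeries.order_mul hz0 hw0, hwo, hz, HahnSeries.order_single one_ne_zero]
    norm_num
  have hzw1 : (z * w).leadingCoeff = 1 := by
    rw [HahnSeries.leadingCoeff_mul, hz, HahnSeries.leadingCoeff_of_single,
      HahnSeries.leadingCoeff_eq, hwo, hw1, mul_one]
  have hκ1 : κ = 1 := by
    have e5 := congrArg (fun f : K => f.coeff 0) hκ
    have e6 : z ^ 2 * (w ^ 2 + C c') = (z * w) * (z * w) + C c' * (single (2 : ℤ) (1 : ℂ) : K) := by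
      rw [hz2]; ring
    rw [e6] at e5
    simp only [coeff_add] at e5
    have e7 := coeff_mul_order_add_order (z * w) (z * w)
    rw [hzw, hzw1, mul_one] at e7
    rw [C_mul_eq_smul, HahnSeries.coeff_smul, coeff_single_of_ne (by norm_num), smul_zero,
      add_zero, C_apply, coeff_single_same] at e5
    rw [← e5]
    exact e7
  refine ⟨a, -c', ?_⟩
  rw [hz2, map_neg]
  have e8 : (C κ : K) = 1 := by rw [hκ1, map_one]
  rw [e8] at hκ
  have e9 : z * (V + y) + C a * z = z * w := by
    rw [hw, hW]; ring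
  rw [e9]
  linear_combination hκ

end Vale.Agent.P097.H779.Disc
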