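import Vale.Agent.P097.H779.Disc.End

/-! # P097 / H779 / Disc : the algebraic end of the disc case (statement `L67`) -/

set_option linter.all false

open HahnSeries

namespace Vale.Agent.P097.H779.Disc

theorem mem_adj {Fd : Subfield K} {y U : K} (hy : IsIntegral Fd y)
    (hU : U ∈ IntermediateField.adjoin Fd {y}) : ∃ P : Polynomial Fd, Polynomial.aeval y P = U := by
  have h1 : U ∈ (IntermediateField.adjoin Fd {y}).toSubalgebra := hU
  rw [IntermediateField.adjoin_simple_toSubalgebra_of_isAlgebraic hy.isAlgebraic,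
    Algebra.adjoin_singleton_eq_range_aeval] at h1
  exact h1

theorem coeff_low {f : K} {n : ℤ} (h : n < f.order) : f.coeff n = 0 :=
  HahnSeries.coeff_eq_zero_of_lt_order h

theorem fin_quad {V y : K} (hVo : V.order = -1) (hyo : y.order = -1)
    (hl : V.leadingCoeff = y.leadingCoeff) {Φ r : Polynomial ℂ} (hΦ : Φ.Monic)
    (hd : 1 ≤ Φ.natDegree) (hyd : y ^ Φ.natDegree = pV V Φ) (hr : y ^ 2 = pV V r) :
    ∃ α β : ℂ, y ^ 2 = V ^ 2 + C α * V + C β := by
  have hV0 : V ≠ 0 := by
    rintro rfl
    simp at hVo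
  have hy0 : y ≠ 0 := by
    rintro rfl
    simp at hyo
  obtain ⟨hDV, hDVo, hDVl⟩ := order_Dz hV0 (by rw [hVo]; norm_num)
  set d := Φ.natDegree with hdd
  have h1 : r ^ d = Φ ^ 2 := by
    apply pV_inj hDV
    rw [map_pow, map_pow, ← hr, ← hyd]
    ring
  have h2 := congrArg Polynomial.natDegree h1
  rw [Polynomial.natDegree_pow, Polynomial.natDegree_pow, ← hdd] at h2
  have h3 : r.natDegree = 2 := by
    have : d * r.natDegree = d * 2 := by linarith
    exact Nat.eq_of_mul_eq_mul_left hd this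
  have h4 : r = Polynomial.C (r.coeff 2) * Polynomial.X ^ 2 + Polynomial.C (r.coeff 1) *
      Polynomial.X + Polynomial.C (r.coeff 0) := by
    ext n
    simp only [Polynomial.coeff_add, Polynomial.coeff_C_mul, Polynomial.coeff_X_pow,
      Polynomial.coeff_X, Polynomial.coeff_C]
    rcases lt_or_ge 2 n with hn | hn
    · rw [Polynomial.coeff_eq_zero_of_natDegree_lt (by omega)]
      rw [if_neg (by omega), if_neg (by omega), if_neg (by omega)]
      ring
    · interval_cases n <;> simp
  have h5 : y ^ 2 = C (r.coeff 2) * V ^ 2 + C (r.coeff 1) * V + C (r.coeff 0) := by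
    rw [hr]
    conv_lhs => rw [h4]
    rw [map_add, map_add, map_mul, map_mul, map_pow, pV_C, pV_C, pV_C, pV_X]
  have h6 : r.coeff 2 = 1 := by
    have e := congrArg (fun f : K => f.coeff (-2)) h5
    simp only [HahnSeries.coeff_add] at e
    rw [C_mul_eq_smul, C_mul_eq_smul, HahnSeries.coeff_smul, HahnSeries.coeff_smul] at e
    have e1 : ∀ f : K, f.order = -1 → (f ^ 2).coeff (-2) = f.leadingCoeff * f.leadingCoeff := by
      intro f hf
      have := coeff_mul_order_add_order f f
      rw [hf] at this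
      rw [sq]
      exact this
    rw [e1 V hVo, e1 y hyo, coeff_low (f := V) (by rw [hVo]; norm_num), C_apply,
      coeff_single_of_ne (by norm_num), hl, smul_eq_mul, smul_zero, add_zero, add_zero] at e
    have e2 : y.leadingCoeff ≠ 0 := HahnSeries.leadingCoeff_ne_zero.2 hy0
    have e3 : y.leadingCoeff * y.leadingCoeff ≠ 0 := mul_ne_zero e2 e2
    exact (mul_right_cancel₀ e3 (by rw [one_mul]; exact e)).symm
  refine ⟨r.coeff 1, r.coeff 0, ?_⟩
  rw [h5, h6, map_one, one_mul]

theorem L67 (V y : K) (hV : V.order = -1) (hy : y.order = -1)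
    (hl : V.leadingCoeff = y.leadingCoeff) (hR : Dz V + Dz y = -(2 * y))
    (Φ : Polynomial ℂ) (hΦ : Φ.Monic) (hd : 1 ≤ Φ.natDegree)
    (hyd : y ^ Φ.natDegree = Φ.eval₂ (C : ℂ →+* K) V)
    (hF : 3 ≤ Φ.natDegree → ∃ (χ : Polynomial ℂ) (g : ℂ),
      ((Φ.natDegree : K) - 2) * (single (2 : ℤ) (1 : ℂ) : K) * y *
        (Φ.derivative.eval₂ (C : ℂ →+* K) V / (Φ.natDegree : K) -
          (V + C (Φ.coeff (Φ.natDegree - 1) / Φ.natDegree)) * y ^ (Φ.natDegree - 2)) =
        C g * y ^ (Φ.natDegree - 2) - χ.eval₂ (C : ℂ →+* K) V) :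
    ∃ α β : ℂ, y ^ 2 = V ^ 2 + C α * V + C β := by
  have hV0 : V ≠ 0 := by
    rintro rfl
    simp at hV
  have hy0 : y ≠ 0 := by
    rintro rfl
    simp at hy
  obtain ⟨hDV, hDVo, hDVl⟩ := order_Dz hV0 (by rw [hV]; norm_num)
  set d := Φ.natDegree with hdd
  have hyd' : y ^ d = pV V Φ := hyd
  have hΦ0 : pV V Φ ≠ 0 := pV_ne_zero hDV hΦ.ne_zero
  have hdK : (d : K) ≠ 0 := by
    have : (d : K) = C (d : ℂ) := by simp
    rw [this]
    intro h
    have := C_eq_zero' h
    have h2 : d = 0 := by exact_mod_cast this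
    omega
  -- logarithmic derivative of `y`
  have hg : dl V y = (pV V (Polynomial.derivative Φ) / ((d : K) * pV V Φ)) * y := by
    have h1 : y * dl V (y ^ d) = (d : K) * y ^ d * dl V y := by
      rw [dl, dl, ← mul_div_assoc, Dz_pow]
      ring
    rw [hyd', dl_pV hDV] at h1
    field_simp
    linear_combination -h1
  rcases Nat.lt_or_ge d 3 with h3 | h3
  · -- small degree
    have hd12 : d = 1 ∨ d = 2 := by omega
    rcases hd12 with h | h
    · refine fin_quad hV hy hl hΦ hd hyd (r := Φ ^ 2) ?_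
      rw [map_pow, ← hyd', h, pow_one]
    · refine fin_quad hV hy hl hΦ hd hyd (r := Φ) ?_
      rw [← hyd', h]
  obtain ⟨χ, g, hχ⟩ := hF h3
  set b := pV V (Polynomial.derivative Φ) / (d : K) -
    (V + C (Φ.coeff (d - 1) / d)) * y ^ (d - 2) with hb
  set W := V + C (Φ.coeff (d - 1) / d) with hW
  have hχ' : ((d : K) - 2) * (single (2 : ℤ) (1 : ℂ) : K) * y * b =
      C g * y ^ (d - 2) - pV V χ := hχ
  have hsplit : y ^ d = y ^ 2 * y ^ (d - 2) := by
    rw [← _root_.pow_add]; congr 1; omega
  by_cases hb0 : b = 0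
  · -- (L6)
    have h1 : y * dl V y = W := by
      have h2 : pV V (Polynomial.derivative Φ) = (d : K) * (W * y ^ (d - 2)) := by
        have : pV V (Polynomial.derivative Φ) / (d : K) = W * y ^ (d - 2) := by
          rw [hb] at hb0
          linear_combination hb0
        rw [← this]
        field_simp
      have h4 : y ^ (d - 2) ≠ 0 := pow_ne_zero _ hy0
      rw [hg, h2, ← hyd', hsplit]
      field_simp
    have h2 : dl V (y ^ 2 - W ^ 2) = 0 := by
      rw [dl_sub, sq, sq, dl_mul, dl_mul, hW, dl_add, dl_C, dl_V hDV, ← hW]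
      linear_combination 2 * h1
    obtain ⟨c, hc⟩ := dl_eq_zero hDV h2
    set a := Φ.coeff (d - 1) / d with ha
    refine ⟨2 * a, a ^ 2 + c, ?_⟩
    have h5 : y ^ 2 = W ^ 2 + C c := by linear_combination hc
    rw [h5, hW, map_add, map_pow, map_mul]
    have : (C (2 : ℂ) : K) = 2 := map_ofNat C 2
    rw [this]
    ring
  · -- (L7)
    have hd2 : ((d : K) - 2) ≠ 0 := by
      have : (d : K) - 2 = C ((d : ℂ) - 2) := by rw [map_sub, map_natCast, map_ofNat]
      rw [this]
      intro h
      have h1 := C_eq_zero' h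
      have h2 : (d : ℂ) = 2 := by linear_combination h1
      have h4 : d = 2 := by exact_mod_cast h2
      omega
    set z2 : K := single (2 : ℤ) (1 : ℂ) with hz2
    have hz20 : z2 ≠ 0 := single_ne_zero one_ne_zero
    have hz2D : Dz z2 = 2 * z2 := by
      ext n
      rw [Dz_coeff, hz2]
      have : (2 : K) = C 2 := (map_ofNat C 2).symm
      rw [this, C_mul_eq_smul, HahnSeries.coeff_smul, coeff_single]
      split_ifs with h
      · rw [h]; simp
      · simp
    set U := z2 * y with hU
    have hU0 : U ≠ 0 := mul_ne_zero hz20 hy0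
    have hUo : U.order = 1 := by
      rw [hU, HahnSeries.order_mul hz20 hy0, hy, hz2, HahnSeries.order_single one_ne_zero]
      norm_num
    have hUe : y * dl V U = -U := by
      rw [dl, hU, Dz_mul, hz2D]
      field_simp
      linear_combination hR
    set g0 : F V := ⟨pV V (Polynomial.derivative Φ) / ((d : K) * pV V Φ),
      (F V).div_mem (pV_mem _) ((F V).mul_mem (natCast_mem _ _) (pV_mem _))⟩ with hg0
    have hint : IsIntegral (F V) y := by
      refine IsIntegral.of_pow (n := d) (by omega) ?_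
      have : y ^ d = algebraMap (F V) K ⟨pV V Φ, pV_mem _⟩ := hyd'
      rw [this]
      exact isIntegral_algebraMap
    have hmemF : ∀ x : K, x ∈ F V → x ∈ IntermediateField.adjoin (F V) {y} := fun x hx =>
      (IntermediateField.adjoin (F V) {y}).algebraMap_mem ⟨x, hx⟩
    have hmy : y ∈ IntermediateField.adjoin (F V) {y} :=
      IntermediateField.mem_adjoin_simple_self (F V) y
    set L := IntermediateField.adjoin (F V) {y} with hL
    have hbL : b ∈ L := by
      rw [hb]
      refine L.sub_mem (L.div_mem (hmemF _ (pV_mem _)) (hmemF _ (natCast_mem _ _))) ?_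
      refine L.mul_mem (hmemF _ ((F V).add_mem V_mem (C_mem _))) (_root_.pow_mem hmy (d - 2))
    have hUL : U ∈ L := by
      have e : U = (C g * y ^ (d - 2) - pV V χ) / (((d : K) - 2) * b) := by
        rw [← hχ', hU]
        field_simp
      rw [e]
      refine L.div_mem (L.sub_mem (L.mul_mem (hmemF _ (C_mem _)) (_root_.pow_mem hmy (d - 2)))
        (hmemF _ (pV_mem _))) (L.mul_mem (hmemF _ ?_) hbL)
      exact (F V).sub_mem (natCast_mem _ _) (ofNat_mem _ _)
    obtain ⟨m, hm1, hm2, hm⟩ := L7 hV hy hU0 hUe hUo (g := g0) hint hg (mem_adj hint hUL)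
    have hy2 : y ^ 2 ∈ F V := by
      have : m = 1 ∨ m = 2 := by omega
      rcases this with h | h
      · rw [h, pow_one] at hm
        exact (F V).pow_mem hm 2
      · rw [h] at hm
        exact hm
    obtain ⟨r, hr⟩ := mem_of_pow hDV hy2 (n := d) (by omega) (P := Φ ^ 2)
      (by rw [map_pow, ← hyd']; ring)
    exact fin_quad hV hy hl hΦ hd hyd hr

end Vale.Agent.P097.H779.Disc
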