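import Vale.Agent.P097.H779.Disc.S4b

/-! # P097 / H779 / Disc : [S4] -/

set_option linter.all false

namespace Vale.Agent.P097.H779.Disc

open Polynomial Vale.Agent.P097.Disc

theorem S4b {a : ℕ → ℂ} (ha : a 0 = 1) {d : ℕ} (hd : 1 ≤ d) {P Q : ℂ[X][X]} (hQ : Q.Monic)
    (hQd : Q.natDegree = d - 1)
    (hQt : ∀ i j, d - 1 < i + j → (Q.coeff j).coeff i = 0)
    (hPt : ∀ i j, d < i + j → (P.coeff j).coeff i = 0)
    (hP0 : ∀ j, (P.coeff j).coeff 0 = 0)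
    (hcop : ∃ (U W : ℂ[X][X]) (r : ℂ[X]), r ≠ 0 ∧ U * P + W * Q = C r)
    (hMI : rho a * PowerSeries.C (RatFunc.X - (RatFunc.X)⁻¹) *
      (ev a Q RatFunc.X * PI a P Q (RatFunc.X)⁻¹ - ev a Q (RatFunc.X)⁻¹ * PI a P Q RatFunc.X) =
      4 * PI a P Q RatFunc.X * PI a P Q (RatFunc.X)⁻¹) :
    PI a P Q (RatFunc.X)⁻¹ = - PI a P Q RatFunc.X ∧
      rho a * PowerSeries.C (RatFunc.X - (RatFunc.X)⁻¹) *
        (ev a Q RatFunc.X + ev a Q (RatFunc.X)⁻¹) = 4 * PI a P Q RatFunc.X := by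
  obtain ⟨e, rfl⟩ : ∃ e, d = e + 1 := ⟨d - 1, by omega⟩
  rw [Nat.add_sub_cancel] at hQd hQt
  have hx : (RatFunc.X : LL) ≠ 0 := RatFunc.X_ne_zero
  have hx' : (RatFunc.X : LL)⁻¹ ≠ 0 := inv_ne_zero hx
  set κ := kapR (Aps a) (Bps a) Q e with hκ
  set π := (C (Aps a) * X ^ 2 - C (Bps a)) * κ - kapR (Aps a) (Bps a) P (e + 1) with hπ
  set κ' := reflect (2 * e) κ with hκ'
  set π' := reflect (2 * (e + 1)) π with hπ'
  set x : PowerSeries LL := PowerSeries.C (RatFunc.X : LL) with hxd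
  set y : PowerSeries LL := PowerSeries.C (RatFunc.X : LL)⁻¹ with hyd
  have hxy : x * y = 1 := by rw [hxd, hyd, ← map_mul, mul_inv_cancel₀ hx, map_one]
  have hyx : y * x = 1 := by rw [mul_comm]; exact hxy
  have hx0 : x ≠ 0 := left_ne_zero_of_mul_eq_one hxy
  have dκ : κ.natDegree ≤ 2 * e := kap_natDegree _ _ _ _ _
  have dP : (kapR (Aps a) (Bps a) P (e + 1)).natDegree ≤ 2 * (e + 1) := kap_natDegree _ _ _ _ _
  have dq : (C (Aps a) * X ^ 2 - C (Bps a) : (PowerSeries ℂ)[X]).natDegree ≤ 2 := by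
    refine (natDegree_sub_le _ _).trans ?_
    rw [natDegree_C]
    exact max_le (natDegree_C_mul_X_pow_le _ _) (by norm_num)
  have dπ : π.natDegree ≤ 2 * (e + 1) := by
    rw [hπ]
    refine (natDegree_sub_le _ _).trans (max_le ?_ dP)
    refine (natDegree_mul_le_of_le dq dκ).trans ?_
    omega
  -- evaluations
  have e1 : κ.eval₂ fL x = x ^ e * ev a Q RatFunc.X := kapL a hQt hx
  have e2 : κ.eval₂ fL y = y ^ e * ev a Q (RatFunc.X)⁻¹ := kapL a hQt hx'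
  have m1 := fL_mz a (RatFunc.X : LL)
  have m2 := fL_mz a (RatFunc.X : LL)⁻¹
  rw [inv_inv] at m2
  have e3 : π.eval₂ fL x = x ^ (e + 1) * PI a P Q RatFunc.X := by
    rw [hπ, eval₂_sub, eval₂_mul, e1, kapL a hPt hx, PI, ← m1]
    simp only [eval₂_sub, eval₂_mul, eval₂_pow, eval₂_X, eval₂_C]
    rw [← hxd, ← hyd]
    linear_combination (fL (Bps a) * x ^ e * ev a Q RatFunc.X) * hxy
  have e4 : π.eval₂ fL y = y ^ (e + 1) * PI a P Q (RatFunc.X)⁻¹ := by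
    rw [hπ, eval₂_sub, eval₂_mul, e2, kapL a hPt hx', PI, ← m2]
    simp only [eval₂_sub, eval₂_mul, eval₂_pow, eval₂_X, eval₂_C]
    rw [← hxd, ← hyd]
    linear_combination (fL (Bps a) * y ^ e * ev a Q (RatFunc.X)⁻¹) * hxy
  have e5 : κ'.eval₂ fL x = x ^ e * ev a Q (RatFunc.X)⁻¹ := by
    rw [hκ', reflect_eval dκ fL hxy, e2]
    have h1 : x ^ (2 * e) * y ^ e = x ^ e := by
      rw [two_mul, _root_.pow_add, mul_assoc, ← mul_pow, hxy, one_pow, mul_one]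
    linear_combination ev a Q (RatFunc.X)⁻¹ * h1
  have e6 : π'.eval₂ fL x = x ^ (e + 1) * PI a P Q (RatFunc.X)⁻¹ := by
    rw [hπ', reflect_eval dπ fL hxy, e4]
    have h1 : x ^ (2 * (e + 1)) * y ^ (e + 1) = x ^ (e + 1) := by
      rw [two_mul, _root_.pow_add, mul_assoc, ← mul_pow, hxy, one_pow, mul_one]
    linear_combination PI a P Q (RatFunc.X)⁻¹ * h1
  have hMI' : C (Rps a) * (X ^ 2 - 1) * (κ * π' - κ' * π) = 4 * π * π' := by
    apply theta_inj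
    simp only [eval₂_mul, eval₂_sub, eval₂_pow, eval₂_X, eval₂_C, eval₂_one, eval₂_ofNat]
    rw [← hxd, e1, e3, e5, e6, fL_rho]
    have hc : PowerSeries.C ((RatFunc.X : LL) - (RatFunc.X)⁻¹) = x - y := by rw [map_sub]
    rw [hc] at hMI
    linear_combination x ^ (2 * e + 2) * hMI +
      (rho a * x ^ (2 * e + 1) * (ev a Q RatFunc.X * PI a P Q (RatFunc.X)⁻¹ -
        ev a Q (RatFunc.X)⁻¹ * PI a P Q RatFunc.X)) * hxy
  obtain ⟨h1, h2⟩ := anti ha hQ hQd hQt hPt hP0 hcop hκ hπ hκ' hπ' hMI'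
  have hC1 : PI a P Q (RatFunc.X)⁻¹ = - PI a P Q RatFunc.X := by
    have h3 := congrArg (Polynomial.eval₂ fL x) h1
    rw [eval₂_neg, e6, e3] at h3
    apply mul_left_cancel₀ (pow_ne_zero (e + 1) hx0)
    rw [h3]
    ring
  refine ⟨hC1, ?_⟩
  have hne : PI a P Q RatFunc.X ≠ 0 := by
    intro h3
    apply h2
    apply theta_inj
    rw [← hxd, e3, h3, mul_zero, eval₂_zero]
  rw [hC1] at hMI
  apply mul_right_cancel₀ hne
  linear_combination -hMI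

/-- **[S4]** -/
theorem s4 : D3.S4 := by
  intro a Ql F d P R ha0 ha1 hl hs hf
  exact S4b ha0 hf.hd hf.monic hf.deg hf.Qt hf.Pt hf.P0 (D3.bezout hf.monic hf.cop)
    (MI_of ha0 hl hs hf)

end Vale.Agent.P097.H779.Disc
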