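import Vale.Agent.P097.H779.Disc.Kap

/-! # P097 / H779 / Disc : coprimality of the pencil polynomials -/

set_option linter.all false

namespace Vale.Agent.P097.H779.Disc

open Polynomial

/-- an element of an extension of `ℂ` which is a root of a non-zero complex polynomial is
constant -/
theorem const_of_root {Ω : Type*} [Field Ω] (φ : ℂ →+* Ω) {x : Ω} {q : ℂ[X]} (hq : q ≠ 0)
    (h : q.eval₂ φ x = 0) : ∃ c : ℂ, x = φ c := by
  letI : Algebra ℂ Ω := φ.toAlgebra
  have h0 : IsIntegral ℂ x := (show IsAlgebraic ℂ x from ⟨q, hq, h⟩).isIntegral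
  have h2 := IsAlgClosed.degree_eq_one_of_irreducible ℂ (minpoly.irreducible h0)
  obtain ⟨c, hc⟩ := minpoly.mem_range_of_degree_eq_one ℂ x h2
  exact ⟨c, hc.symm⟩

/-- `R(u, v)` for `R ∈ ℂ[N][p]`, as a sum -/
theorem dbl {S : Type*} [CommRing S] (φ : ℂ →+* S) (u v : S) {R : ℂ[X][X]} {e : ℕ}
    (hR : ∀ i j, e < i + j → (R.coeff j).coeff i = 0) :
    R.eval₂ (eval₂RingHom φ u) v = ∑ j ∈ Finset.range (e + 1),
      ∑ i ∈ Finset.range (e + 1 - j), φ ((R.coeff j).coeff i) * u ^ i * v ^ j := by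
  have h1 : R.natDegree < e + 1 := by
    by_contra h
    push Not at h
    have h2 : R.coeff R.natDegree ≠ 0 := by
      rw [coeff_natDegree]
      intro h3
      rw [leadingCoeff_eq_zero] at h3
      rw [h3] at h
      simp at h
    apply h2
    ext i
    rw [coeff_zero]
    exact hR i _ (by omega)
  rw [eval₂_eq_sum_range' _ h1]
  refine Finset.sum_congr rfl fun j hj => ?_
  rw [Finset.mem_range] at hj
  have h2 : (R.coeff j).natDegree < e + 1 - j := by
    by_contra h
    push Not at h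
    have h3 : R.coeff j ≠ 0 := by
      intro h3
      rw [h3] at h
      simp at h
      omega
    exact (leadingCoeff_ne_zero.2 h3) (hR _ j (by omega))
  rw [coe_eval₂RingHom, eval₂_eq_sum_range' _ h2, Finset.sum_mul]

/-- `ξ ^ e * R(z ξ, A ξ + B / ξ)` -/
noncomputable def kapR (a b : PowerSeries ℂ) (R : ℂ[X][X]) (e : ℕ) : (PowerSeries ℂ)[X] :=
  kap (fun j i => PowerSeries.C ((R.coeff j).coeff i)) PowerSeries.X a b e

theorem kapR_eval {S : Type*} [CommRing S] (f : PowerSeries ℂ →+* S) (a b : PowerSeries ℂ)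
    {R : ℂ[X][X]} {e : ℕ} (hR : ∀ i j, e < i + j → (R.coeff j).coeff i = 0) {x y : S}
    (h : x * y = 1) :
    (kapR a b R e).eval₂ f x = x ^ e *
      R.eval₂ (eval₂RingHom (f.comp PowerSeries.C) (f PowerSeries.X * x)) (f a * x + f b * y) := by
  rw [kapR, kap_eval _ _ _ _ _ f h, dbl (f.comp PowerSeries.C) _ _ hR]
  rfl

/-- no common roots -/
theorem no_common {Ω : Type*} [Field Ω] (f : PowerSeries ℂ →+* Ω) (hf : Function.Injective f)
    {a b : PowerSeries ℂ} (ha : PowerSeries.constantCoeff a ≠ 0)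
    (hb : PowerSeries.constantCoeff b ≠ 0)
    {P Q : ℂ[X][X]} {e : ℕ} (hQ : Q.Monic) (hQd : Q.natDegree = e)
    (hQt : ∀ i j, e < i + j → (Q.coeff j).coeff i = 0)
    (hPt : ∀ i j, e + 1 < i + j → (P.coeff j).coeff i = 0)
    (hcop : ∃ (U W : ℂ[X][X]) (r : ℂ[X]), r ≠ 0 ∧ U * P + W * Q = C r) (ξ : Ω)
    (h1 : (kapR a b Q e).eval₂ f ξ = 0) (h2 : (kapR a b P (e + 1)).eval₂ f ξ = 0) : False := by
  have hξ : ξ ≠ 0 := by
    rintro rfl
    rw [eval₂_at_zero] at h1
    have h3 : (kapR a b Q e).coeff 0 = b ^ e := by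
      rw [kapR, kap_coeff_zero]
      have : (Q.coeff e).coeff 0 = 1 := by
        rw [← hQd, hQ.coeff_natDegree, coeff_one_zero]
      rw [this, map_one, one_mul]
    rw [h3] at h1
    have h4 : b ^ e = 0 := hf (by rw [h1, map_zero])
    have h5 : b = 0 := by
      by_contra h
      exact pow_ne_zero e h h4
    rw [h5, map_zero] at hb
    exact hb rfl
  have hxy : ξ * ξ⁻¹ = 1 := mul_inv_cancel₀ hξ
  rw [kapR_eval f a b hQt hxy] at h1
  rw [kapR_eval f a b hPt hxy] at h2
  have hp : ∀ n : ℕ, ξ ^ n ≠ 0 := fun n => pow_ne_zero _ hξ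
  replace h1 := (mul_eq_zero.1 h1).resolve_left (hp _)
  replace h2 := (mul_eq_zero.1 h2).resolve_left (hp _)
  set N0 := f PowerSeries.X * ξ with hN0
  set p0 := f a * ξ + f b * ξ⁻¹ with hp0
  set φ := f.comp (PowerSeries.C : ℂ →+* PowerSeries ℂ) with hφ
  obtain ⟨U, W, r, hr, hUW⟩ := hcop
  have h3 := congrArg (fun R : ℂ[X][X] => R.eval₂ (eval₂RingHom φ N0) p0) hUW
  simp only [eval₂_add, eval₂_mul, h1, h2, mul_zero, add_zero, eval₂_C, coe_eval₂RingHom] at h3
  obtain ⟨c, hc⟩ := const_of_root φ hr h3.symm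
  -- `p0` is constant
  have h4 : (Q.map (evalRingHom c)).eval₂ φ p0 = 0 := by
    rw [eval₂_map]
    rw [← h1]
    congr 1
    ext x
    · simp
    · simp [hc]
  have h5 : (Q.map (evalRingHom c)) ≠ 0 := (hQ.map _).ne_zero
  obtain ⟨c', hc'⟩ := const_of_root φ h5 h4
  have h6 : f (PowerSeries.C c' * PowerSeries.X * PowerSeries.C c) =
      f (a * (PowerSeries.C c) ^ 2 + b * PowerSeries.X ^ 2) := by
    simp only [map_mul, map_add, map_pow]
    have e1 : f (PowerSeries.C c') = p0 := hc'.symm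
    have e2 : f (PowerSeries.C c) = N0 := hc.symm
    rw [e1, e2, hp0, hN0]
    field_simp
  have h7 := congrArg PowerSeries.constantCoeff (hf h6)
  simp only [map_mul, map_add, map_pow, PowerSeries.constantCoeff_X, PowerSeries.constantCoeff_C,
    mul_zero, zero_mul] at h7
  have h8 : c = 0 := by
    have : PowerSeries.constantCoeff a * c ^ 2 = 0 := by
      simpa using h7.symm
    have := (mul_eq_zero.1 this).resolve_left ha
    exact pow_eq_zero_iff (two_ne_zero) |>.1 this
  rw [h8, map_zero] at hc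
  rcases mul_eq_zero.1 hc with h9 | h9
  · have : (PowerSeries.X : PowerSeries ℂ) = 0 := hf (by rw [h9, map_zero])
    exact PowerSeries.X_ne_zero this
  · exact hξ h9

end Vale.Agent.P097.H779.Disc
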