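import Vale.Agent.P097.H779.Disc.TS
import Vale.Agent.P097.Disc.Defs

/-! # P097 / H779 / Disc : evaluation of rational functions at power series -/

set_option linter.all false

namespace Vale.Agent.P097.H779.Disc

open PowerSeries Vale.Agent.P097.Disc

/-- the power series has a transcendental constant term -/
def Gen (P : PowerSeries (RatFunc ℂ)) : Prop :=
  ∀ q : Polynomial ℂ, q ≠ 0 → constantCoeff (Polynomial.aeval P q) ≠ 0

variable {P : PowerSeries (RatFunc ℂ)}

theorem evR_rep (hP : Gen P) (p q : Polynomial ℂ) (hq : q ≠ 0) :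
    evR (algebraMap (Polynomial ℂ) (RatFunc ℂ) p / algebraMap (Polynomial ℂ) (RatFunc ℂ) q) P *
      Polynomial.aeval P q = Polynomial.aeval P p := by
  set r := algebraMap (Polynomial ℂ) (RatFunc ℂ) p / algebraMap (Polynomial ℂ) (RatFunc ℂ) q with hr
  have hq' : algebraMap (Polynomial ℂ) (RatFunc ℂ) q ≠ 0 := RatFunc.algebraMap_ne_zero hq
  have hd' : algebraMap (Polynomial ℂ) (RatFunc ℂ) r.denom ≠ 0 :=
    RatFunc.algebraMap_ne_zero r.denom_ne_zero
  have h1 : r.num * q = p * r.denom := by
    apply RatFunc.algebraMap_injective ℂ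
    rw [map_mul, map_mul]
    have h2 := RatFunc.num_div_denom r
    rw [div_eq_iff hd'] at h2
    rw [h2, hr]
    field_simp
  have h2 := congrArg (Polynomial.aeval P) h1
  rw [map_mul, map_mul] at h2
  have h3 : Polynomial.aeval P r.denom * (Polynomial.aeval P r.denom)⁻¹ = 1 :=
    PowerSeries.mul_inv_cancel _ (hP _ r.denom_ne_zero)
  rw [evR]
  calc Polynomial.aeval P r.num * (Polynomial.aeval P r.denom)⁻¹ * Polynomial.aeval P q
      = (Polynomial.aeval P r.num * Polynomial.aeval P q) * (Polynomial.aeval P r.denom)⁻¹ := by ring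
    _ = Polynomial.aeval P p * (Polynomial.aeval P r.denom * (Polynomial.aeval P r.denom)⁻¹) := by
        rw [h2]; ring
    _ = Polynomial.aeval P p := by rw [h3, mul_one]

theorem aeval_ne_zero (hP : Gen P) {q : Polynomial ℂ} (hq : q ≠ 0) :
    Polynomial.aeval P q ≠ 0 := by
  intro h
  apply hP q hq
  rw [h, map_zero]

theorem evR_eq (hP : Gen P) {p q : Polynomial ℂ} (hq : q ≠ 0) {r : RatFunc ℂ}
    (hr : r = algebraMap (Polynomial ℂ) (RatFunc ℂ) p / algebraMap (Polynomial ℂ) (RatFunc ℂ) q)
    {f : PowerSeries (RatFunc ℂ)} (hf : f * Polynomial.aeval P q = Polynomial.aeval P p) :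
    evR r P = f := by
  apply mul_right_cancel₀ (aeval_ne_zero hP hq)
  rw [hf, hr, evR_rep hP _ _ hq]

theorem evR_algebraMap (hP : Gen P) (p : Polynomial ℂ) :
    evR (algebraMap (Polynomial ℂ) (RatFunc ℂ) p) P = Polynomial.aeval P p := by
  apply evR_eq hP (p := p) (q := 1) one_ne_zero
  · rw [map_one, div_one]
  · rw [map_one, mul_one]

theorem evR_add (hP : Gen P) (r s : RatFunc ℂ) : evR (r + s) P = evR r P + evR s P := by
  obtain ⟨p, q, hq, hr⟩ := exists_rep r
  obtain ⟨p', q', hq2, hs⟩ := exists_rep s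
  have h1 := evR_rep hP p q hq
  have h2 := evR_rep hP p' q' hq2
  rw [← hr] at h1
  rw [← hs] at h2
  apply evR_eq hP (p := p * q' + q * p') (q := q * q') (mul_ne_zero hq hq2)
  · have e1 : algebraMap (Polynomial ℂ) (RatFunc ℂ) q ≠ 0 := RatFunc.algebraMap_ne_zero hq
    have e2 : algebraMap (Polynomial ℂ) (RatFunc ℂ) q' ≠ 0 := RatFunc.algebraMap_ne_zero hq2
    rw [hr, hs, map_add, map_mul, map_mul, map_mul]
    field_simp
  · rw [map_add, map_mul, map_mul, map_mul, ← h1, ← h2]
    ring

theorem evR_mul (hP : Gen P) (r s : RatFunc ℂ) : evR (r * s) P = evR r P * evR s P := by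
  obtain ⟨p, q, hq, hr⟩ := exists_rep r
  obtain ⟨p', q', hq2, hs⟩ := exists_rep s
  have h1 := evR_rep hP p q hq
  have h2 := evR_rep hP p' q' hq2
  rw [← hr] at h1
  rw [← hs] at h2
  apply evR_eq hP (p := p * p') (q := q * q') (mul_ne_zero hq hq2)
  · have e1 : algebraMap (Polynomial ℂ) (RatFunc ℂ) q ≠ 0 := RatFunc.algebraMap_ne_zero hq
    have e2 : algebraMap (Polynomial ℂ) (RatFunc ℂ) q' ≠ 0 := RatFunc.algebraMap_ne_zero hq2
    rw [hr, hs, map_mul, map_mul]
    field_simp
  · rw [map_mul, map_mul, ← h1, ← h2]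
    ring

theorem evR_zero (hP : Gen P) : evR (0 : RatFunc ℂ) P = 0 := by
  have := evR_algebraMap hP 0
  simpa using this

theorem evR_sum (hP : Gen P) {ι : Type*} (s : Finset ι) (f : ι → RatFunc ℂ) :
    evR (∑ i ∈ s, f i) P = ∑ i ∈ s, evR (f i) P := by
  classical
  induction s using Finset.induction_on with
  | empty => simp [evR_zero hP]
  | insert i s hi ih => rw [Finset.sum_insert hi, Finset.sum_insert hi, evR_add hP, ih]

theorem evR_natCast (hP : Gen P) (n : ℕ) : evR (n : RatFunc ℂ) P = (n : PowerSeries (RatFunc ℂ)) := by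
  have := evR_algebraMap hP (n : Polynomial ℂ)
  simpa using this

section chain

variable {δ : PowerSeries (RatFunc ℂ) → PowerSeries (RatFunc ℂ)}
  (hadd : ∀ f g, δ (f + g) = δ f + δ g) (hmul : ∀ f g, δ (f * g) = δ f * g + f * δ g)
  (hc : ∀ c : ℂ, δ (algebraMap ℂ (PowerSeries (RatFunc ℂ)) c) = 0)

include hadd hmul hc in
theorem chain_aeval (q : Polynomial ℂ) :
    δ (Polynomial.aeval P q) = Polynomial.aeval P (Polynomial.derivative q) * δ P := by
  have h1 : δ 1 = 0 := by
    have := hc 1
    rwa [map_one] at this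
  have hpow : ∀ n : ℕ, δ (P ^ n) = (n : PowerSeries (RatFunc ℂ)) * P ^ (n - 1) * δ P := by
    intro n
    induction n with
    | zero => simp [h1]
    | succ n ih =>
      rw [pow_succ, hmul, ih]
      rcases Nat.eq_zero_or_pos n with h | h
      · subst h; simp
      · have : P ^ n = P ^ (n - 1) * P := by rw [← pow_succ, Nat.sub_add_cancel h]
        rw [Nat.add_sub_cancel, this]
        push_cast
        ring
  induction q using Polynomial.induction_on' with
  | add p q hp hq =>
    rw [map_add, hadd, hp, hq, Polynomial.derivative_add, map_add]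
    ring
  | monomial n c =>
    rw [Polynomial.aeval_monomial, hmul, hc, hpow, Polynomial.derivative_monomial,
      Polynomial.aeval_monomial, map_mul, map_natCast]
    ring

include hadd hmul hc in
theorem chain_evR (hP : Gen P) (r : RatFunc ℂ) : δ (evR r P) = evR (dR r) P * δ P := by
  obtain ⟨p, q, hq, hr⟩ := exists_rep r
  have h1 := evR_rep hP p q hq
  rw [← hr] at h1
  have h2 := congrArg δ h1
  rw [hmul, chain_aeval hadd hmul hc, chain_aeval hadd hmul hc] at h2
  have h3 : evR (dR r) P * (Polynomial.aeval P q) ^ 2 =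
      Polynomial.aeval P (Polynomial.derivative p * q - p * Polynomial.derivative q) := by
    rw [← map_pow]
    have := evR_rep hP (Polynomial.derivative p * q - p * Polynomial.derivative q) (q ^ 2)
      (pow_ne_zero _ hq)
    rw [← this, hr, dR_div p q hq]
    simp only [map_sub, map_mul, map_pow]
  rw [map_sub, map_mul, map_mul] at h3
  have hq0 := aeval_ne_zero hP hq
  apply mul_right_cancel₀ (pow_ne_zero 2 hq0)
  set A := Polynomial.aeval P q
  set B := Polynomial.aeval P p
  set A' := Polynomial.aeval P (Polynomial.derivative q)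
  set B' := Polynomial.aeval P (Polynomial.derivative p)
  calc δ (evR r P) * A ^ 2 = (δ (evR r P) * A) * A := by ring
    _ = (B' * δ P - evR r P * (A' * δ P)) * A := by rw [← h2]; ring
    _ = (B' * A - (evR r P * A) * A') * δ P := by ring
    _ = (evR (dR r) P * A ^ 2) * δ P := by rw [h1, h3]
    _ = evR (dR r) P * δ P * A ^ 2 := by ring

end chain

end Vale.Agent.P097.H779.Disc
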