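import Vale.Agent.P097.H779.Disc.PV

/-! # P097 / H779 / Disc : the algebraic end of the disc case (L6, L7) -/

set_option linter.all false

open HahnSeries

namespace Vale.Agent.P097.H779.Disc

section kummer

variable {V : K} (hV : Dz V ≠ 0)

noncomputable def DF (a : F V) : F V := ⟨dl V a, dl_mem hV a.2⟩

theorem DF_coe (a : F V) : ((DF hV a : F V) : K) = dl V a := rfl

theorem DF_zero : DF hV 0 = 0 := by
  apply Subtype.ext
  rw [DF_coe]
  simp [dl_zero]

theorem DF_one : DF hV 1 = 0 := by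
  apply Subtype.ext
  rw [DF_coe]
  simp [dl_one]

theorem DF_add (a b : F V) : DF hV (a + b) = DF hV a + DF hV b := by
  apply Subtype.ext
  simp [DF_coe, dl_add]

/-- the derivation of `F[X]` with `X' = g X` -/
noncomputable def del (g : F V) (P : Polynomial (F V)) : Polynomial (F V) :=
  ∑ j ∈ P.support, Polynomial.monomial j (DF hV (P.coeff j) + (j : F V) * g * P.coeff j)

theorem del_coeff (g : F V) (P : Polynomial (F V)) (j : ℕ) :
    (del hV g P).coeff j = DF hV (P.coeff j) + (j : F V) * g * P.coeff j := by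
  rw [del, Polynomial.finset_sum_coeff]
  simp only [Polynomial.coeff_monomial]
  rw [Finset.sum_ite_eq']
  split_ifs with h
  · rfl
  · rw [Polynomial.notMem_support_iff.1 h, DF_zero]; ring

theorem del_add (g : F V) (P Q : Polynomial (F V)) : del hV g (P + Q) = del hV g P + del hV g Q := by
  ext j : 1
  rw [Polynomial.coeff_add, del_coeff, del_coeff, del_coeff, Polynomial.coeff_add, DF_add]
  ring

theorem del_monomial (g : F V) (n : ℕ) (a : F V) :
    del hV g (Polynomial.monomial n a) = Polynomial.monomial n (DF hV a + (n : F V) * g * a) := by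
  ext j : 1
  rw [del_coeff, Polynomial.coeff_monomial, Polynomial.coeff_monomial]
  split_ifs with h
  · rw [h]
  · rw [DF_zero]; ring

theorem aeval_del {x : K} {g : F V} (h : dl V x = g * x) (P : Polynomial (F V)) :
    Polynomial.aeval x (del hV g P) = dl V (Polynomial.aeval x P) := by
  induction P using Polynomial.induction_on' with
  | add p q hp hq => rw [del_add, map_add, map_add, hp, hq, dl_add]
  | monomial n a =>
    rw [del_monomial, Polynomial.aeval_monomial, Polynomial.aeval_monomial, dl_mul, dl_pow h]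
    have e1 : algebraMap (F V) K (DF hV a + (n : F V) * g * a) =
        dl V (a : K) + (n : K) * (g : K) * (a : K) := by
      show ((DF hV a + (n : F V) * g * a : F V) : K) = _
      push_cast
      rw [DF_coe]
    have e2 : algebraMap (F V) K a = (a : K) := rfl
    rw [e1, e2]
    ring

variable {y : K} {g : F V}

/-- the minimal polynomial is stable : `del (minpoly) = m g minpoly` -/
theorem del_minpoly (hy : IsIntegral (F V) y) (h : dl V y = g * y) :
    del hV g (minpoly (F V) y) =
      Polynomial.C (((minpoly (F V) y).natDegree : F V) * g) * minpoly (F V) y := by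
  set P := minpoly (F V) y with hP
  set m := P.natDegree with hm
  have hmon : P.Monic := minpoly.monic hy
  rw [← sub_eq_zero]
  set Q := del hV g P - Polynomial.C ((m : F V) * g) * P with hQ
  by_contra hne
  have h1 : Polynomial.aeval y Q = 0 := by
    rw [hQ, map_sub, aeval_del hV h, map_mul, hP, minpoly.aeval, dl_zero]
    ring
  have h2 := minpoly.degree_le_of_ne_zero (F V) y hne h1
  have h3 : m ≤ Q.natDegree := by
    rw [hm]
    exact Polynomial.natDegree_le_natDegree h2
  have h4 : Q.coeff Q.natDegree = 0 := by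
    rw [hQ, Polynomial.coeff_sub, Polynomial.coeff_C_mul, del_coeff]
    rw [← hQ]
    rcases h3.lt_or_eq with h5 | h5
    · rw [Polynomial.coeff_eq_zero_of_natDegree_lt h5, DF_zero]; ring
    · rw [← h5]
      have : P.coeff m = 1 := hmon.coeff_natDegree
      rw [this, DF_one]
      ring
  exact hne (Polynomial.leadingCoeff_eq_zero.1 h4)

include hV in
theorem minpoly_pow (hy : IsIntegral (F V) y) (hy0 : y ≠ 0) (h : dl V y = g * y) :
    y ^ (minpoly (F V) y).natDegree ∈ F V := by
  have h1 := del_minpoly hV hy h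
  set P := minpoly (F V) y with hP
  set m := P.natDegree with hm
  have h2 := congrArg (fun R => Polynomial.coeff R 0) h1
  simp only [del_coeff, Polynomial.coeff_C_mul] at h2
  have h3 : P.coeff 0 ≠ 0 := minpoly.coeff_zero_ne_zero hy hy0
  set a := P.coeff 0 with ha
  have h4 : dl V (a : K) = (m : K) * g * a := by
    have := congrArg (fun x : F V => (x : K)) h2
    simp only [Nat.cast_zero, zero_mul, add_zero] at this
    rw [DF_coe] at this
    rw [this]
    push_cast
    ring
  have h5 : dl V ((a : K) / y ^ m) = 0 := by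
    have e1 : (a : K) / y ^ m * y ^ m = a := div_mul_cancel₀ _ (pow_ne_zero _ hy0)
    have e2 := congrArg (dl V) e1
    rw [dl_mul, dl_pow h, h4] at e2
    have e3 : dl V ((a : K) / y ^ m) * y ^ m = 0 := by
      linear_combination e2 - (m : K) * g * e1
    exact (mul_eq_zero.1 e3).resolve_right (pow_ne_zero _ hy0)
  obtain ⟨c, hc⟩ := dl_eq_zero hV h5
  have ha0 : (a : K) ≠ 0 := fun h => h3 (Subtype.ext h)
  have hcK : (C c : K) ≠ 0 := by
    rw [← hc]
    exact div_ne_zero ha0 (pow_ne_zero _ hy0)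
  have h6 : y ^ m = (a : K) / C c := by
    rw [eq_div_iff hcK, ← hc]
    field_simp
  rw [h6]
  exact (F V).div_mem a.2 (C_mem c)

theorem minpoly_eq (hy : IsIntegral (F V) y) (hy0 : y ≠ 0) (h : dl V y = g * y) :
    minpoly (F V) y = Polynomial.X ^ (minpoly (F V) y).natDegree -
      Polynomial.C ⟨y ^ (minpoly (F V) y).natDegree, minpoly_pow hV hy hy0 h⟩ := by
  set m := (minpoly (F V) y).natDegree with hm
  have hm0 : 0 < m := minpoly.natDegree_pos hy
  refine (minpoly.unique' (F V) y (Polynomial.monic_X_pow_sub_C _ hm0.ne') ?_ ?_).symm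
  · rw [map_sub, map_pow, Polynomial.aeval_X, Polynomial.aeval_C]
    exact sub_self _
  · intro q hq
    by_contra h1
    push Not at h1
    have h2 := minpoly.degree_le_of_ne_zero (F V) y h1.1 h1.2
    rw [Polynomial.degree_X_pow_sub_C hm0, Polynomial.degree_eq_natDegree (minpoly.ne_zero hy),
      ← hm] at *
    exact absurd hq (not_lt.2 h2)

include hV in
/-- the conjugate of a solution of `y U' = - U` -/
theorem conj_sol (hy : IsIntegral (F V) y) (hy0 : y ≠ 0) (h : dl V y = g * y) {ζ : ℂ}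
    (hζ : ζ ^ (minpoly (F V) y).natDegree = 1) {P : Polynomial (F V)}
    (hU0 : Polynomial.aeval y P ≠ 0)
    (hU : y * dl V (Polynomial.aeval y P) = - Polynomial.aeval y P) :
    Polynomial.aeval ((C ζ : K) * y) P ≠ 0 ∧
      ((C ζ : K) * y) * dl V (Polynomial.aeval ((C ζ : K) * y) P) = - Polynomial.aeval ((C ζ : K) * y) P := by
  set M := minpoly (F V) y with hM
  have hx : dl V ((C ζ : K) * y) = (g : K) * ((C ζ : K) * y) := by
    rw [dl_mul, dl_C, h]; ring
  have hroot : Polynomial.aeval ((C ζ : K) * y) M = 0 := by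
    have e2 := congrArg (Polynomial.aeval ((C ζ : K) * y)) (minpoly_eq hV hy hy0 h)
    have hζ' : ζ ^ (minpoly (F V) y).natDegree = 1 := hζ
    rw [map_sub, map_pow, Polynomial.aeval_X, Polynomial.aeval_C, mul_pow, ← map_pow, hζ',
      map_one, one_mul] at e2
    exact e2.trans (sub_self _)
  constructor
  · intro h0
    have h1 : minpoly (F V) ((C ζ : K) * y) = M :=
      (minpoly.eq_of_irreducible_of_monic (minpoly.irreducible hy) hroot (minpoly.monic hy)).symm
    have h2 : M ∣ P := by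
      rw [← h1]
      exact minpoly.dvd _ _ h0
    obtain ⟨R, hR⟩ := h2
    apply hU0
    rw [hR, map_mul, hM, minpoly.aeval, zero_mul]
  · have h1 : Polynomial.aeval y (Polynomial.X * del hV g P + P) = 0 := by
      rw [map_add, map_mul, Polynomial.aeval_X, aeval_del hV h, hU]
      ring
    obtain ⟨R, hR⟩ := minpoly.dvd _ _ h1
    have h2 : Polynomial.aeval ((C ζ : K) * y) (Polynomial.X * del hV g P + P) = 0 := by
      rw [hR, map_mul, ← hM, hroot, zero_mul]
    rw [map_add, map_mul, Polynomial.aeval_X, aeval_del hV hx] at h2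
    linear_combination h2

/-- the order of a solution of `y U' = - U` -/
theorem order_sol {x U W : K} (hx0 : x ≠ 0) (hV1 : Dz V ≠ 0) (hU0 : U ≠ 0)
    (hU : x * dl V U = -U) (hW : W = - (Dz V / x)) (hWo : W.order = 0) (hW0 : W ≠ 0) :
    (U.order : ℂ) = W.coeff 0 := by
  apply dlog_order hU0 _ hWo hW0
  rw [hW]
  rw [dl] at hU
  field_simp at hU ⊢
  linear_combination hU

end kummer

theorem order_Dz {f : K} (hf : f ≠ 0) (h0 : f.order ≠ 0) : Dz f ≠ 0 ∧ (Dz f).order = f.order ∧
    (Dz f).leadingCoeff = (f.order : ℂ) * f.leadingCoeff := by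
  have h1 : (Dz f).coeff f.order ≠ 0 := by
    rw [Dz_coeff]
    exact mul_ne_zero (by exact_mod_cast h0) (mt HahnSeries.coeff_order_eq_zero.1 hf)
  have h2 : Dz f ≠ 0 := fun h => h1 (by rw [h]; rfl)
  have h3 : (Dz f).order = f.order := by
    apply le_antisymm
    · exact HahnSeries.order_le_of_coeff_ne_zero h1
    · have h4 := mt HahnSeries.coeff_order_eq_zero.1 h2
      rw [Dz_coeff] at h4
      exact HahnSeries.order_le_of_coeff_ne_zero (right_ne_zero_of_mul h4)
  refine ⟨h2, h3, ?_⟩
  rw [HahnSeries.leadingCoeff_eq, HahnSeries.leadingCoeff_eq, h3, Dz_coeff]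

/-- **(L7)** -/
theorem L7 {V y U : K} (hVo : V.order = -1) (hyo : y.order = -1)
    (hU0 : U ≠ 0) (hU : y * dl V U = -U) (hUo : U.order = 1)
    {g : F V} (hy : IsIntegral (F V) y) (h : dl V y = g * y)
    (hUF : ∃ P : Polynomial (F V), Polynomial.aeval y P = U) :
    ∃ m : ℕ, 1 ≤ m ∧ m ≤ 2 ∧ y ^ m ∈ F V := by
  have hV0 : V ≠ 0 := by
    rintro rfl
    simp at hVo
  have hy0 : y ≠ 0 := by
    rintro rfl
    simp at hyo
  obtain ⟨hDV, hDVo, hDVl⟩ := order_Dz hV0 (by rw [hVo]; norm_num)
  set m := (minpoly (F V) y).natDegree with hm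
  have hm0 : 0 < m := minpoly.natDegree_pos hy
  refine ⟨m, hm0, ?_, minpoly_pow hDV hy hy0 h⟩
  obtain ⟨P, hP⟩ := hUF
  obtain ⟨ζ, hζ⟩ : ∃ ζ : ℂ, IsPrimitiveRoot ζ m := ⟨_, Complex.isPrimitiveRoot_exp m hm0.ne'⟩
  obtain ⟨hx0, hx⟩ := conj_sol hDV hy hy0 h hζ.pow_eq_one (by rw [hP]; exact hU0)
    (by rw [hP]; exact hU)
  set U' := Polynomial.aeval ((C ζ : K) * y) P with hU'
  have hζ0 : ζ ≠ 0 := hζ.ne_zero hm0.ne'
  have hCζ : (C ζ : K) ≠ 0 := fun h => hζ0 (C_eq_zero' h)
  -- orders
  have hord : ∀ {a b : K}, a ≠ 0 → b ≠ 0 → a.order = b.order → (a / b).order = 0 := by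
    intro a b ha hb hab
    have h1 : a / b * b = a := div_mul_cancel₀ _ hb
    have h2 := HahnSeries.order_mul (div_ne_zero ha hb) hb
    rw [h1] at h2
    omega
  have hW0 : -(Dz V / y) ≠ 0 := neg_ne_zero.2 (div_ne_zero hDV hy0)
  have hWo : (-(Dz V / y)).order = 0 := by
    rw [HahnSeries.order_neg]
    exact hord hDV hy0 (by rw [hDVo, hVo, hyo])
  have hCy0 : (C ζ : K) * y ≠ 0 := mul_ne_zero hCζ hy0
  have hCyo : ((C ζ : K) * y).order = -1 := by
    rw [HahnSeries.order_mul hCζ hy0, hyo, HahnSeries.order_C]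
    norm_num
  have hW0' : -(Dz V / ((C ζ : K) * y)) ≠ 0 := neg_ne_zero.2 (div_ne_zero hDV hCy0)
  have hWo' : (-(Dz V / ((C ζ : K) * y))).order = 0 := by
    rw [HahnSeries.order_neg]
    exact hord hDV hCy0 (by rw [hDVo, hVo, hCyo])
  have e1 := order_sol hy0 hDV hU0 hU rfl hWo hW0
  have e2 := order_sol hCy0 hDV hx0 hx rfl hWo' hW0'
  rw [hUo] at e1
  have e3 : -(Dz V / ((C ζ : K) * y)) = C ζ⁻¹ * (-(Dz V / y)) := by
    have : (C ζ⁻¹ : K) = (C ζ : K)⁻¹ := by
      exact eq_inv_of_mul_eq_one_left (by rw [← map_mul, inv_mul_cancel₀ hζ0, map_one])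
    rw [this]
    field_simp
  have e4 : (U'.order : ℂ) = ζ⁻¹ := by
    rw [e2, e3, C_mul_eq_smul, HahnSeries.coeff_smul, ← e1]
    simp
  have e5 : ‖ζ‖ = 1 := hζ.norm'_eq_one hm0.ne'
  have e6 : |U'.order| = 1 := by
    have h1 := congrArg norm e4
    rw [norm_inv, e5, inv_one] at h1
    have h2 : ‖((U'.order : ℤ) : ℂ)‖ = |(U'.order : ℝ)| := by
      rw [← Complex.ofReal_intCast, Complex.norm_real, Real.norm_eq_abs]
    rw [h2] at h1
    exact_mod_cast h1
  have e7 : ζ ^ 2 = 1 := by
    have h1 : (U'.order) ^ 2 = 1 := by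
      rw [← sq_abs, e6]; norm_num
    have h2 : ((U'.order : ℤ) : ℂ) ^ 2 = 1 := by exact_mod_cast h1
    rw [e4, inv_pow, inv_eq_one] at h2
    exact h2
  exact Nat.le_of_dvd (by norm_num) (hζ.dvd_of_pow_eq_one _ e7)

end Vale.Agent.P097.H779.Disc
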