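import Mathlib

/-! # P097 / H779 / Disc : the pencil polynomials -/

set_option linter.all false

namespace Vale.Agent.P097.H779.Disc

open Polynomial

section

variable {O S : Type*} [CommRing O] [CommRing S]

/-- `ξ ^ e * R(z ξ, A ξ + B / ξ)` as a polynomial in `ξ`; `r j i` = coefficient of `p ^ j N ^ i` -/
noncomputable def kap (r : ℕ → ℕ → O) (z A B : O) (e : ℕ) : O[X] :=
  ∑ j ∈ Finset.range (e + 1), ∑ i ∈ Finset.range (e + 1 - j),
    C (r j i * z ^ i) * (X ^ (e + i - j) * (C A * X ^ 2 + C B) ^ j)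

theorem kap_term {j i e : ℕ} (hj : j ≤ e) (f : O →+* S) (A B : O) {x y : S} (h : x * y = 1) :
    (X ^ (e + i - j) * (C A * X ^ 2 + C B) ^ j : O[X]).eval₂ f x =
      x ^ e * (x ^ i * (f A * x + f B * y) ^ j) := by
  simp only [eval₂_mul, eval₂_pow, eval₂_add, eval₂_X, eval₂_C]
  have h1 : f A * x ^ 2 + f B = x * (f A * x + f B * y) := by
    linear_combination (-f B) * h
  rw [h1, mul_pow]
  have h2 : x ^ (e + i - j) * x ^ j = x ^ e * x ^ i := by
    rw [← pow_add, ← pow_add]
    congr 1
    omega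
  linear_combination (f A * x + f B * y) ^ j * h2

theorem kap_eval (r : ℕ → ℕ → O) (z A B : O) (e : ℕ) (f : O →+* S) {x y : S} (h : x * y = 1) :
    (kap r z A B e).eval₂ f x = x ^ e * ∑ j ∈ Finset.range (e + 1),
      ∑ i ∈ Finset.range (e + 1 - j), f (r j i) * (f z * x) ^ i * (f A * x + f B * y) ^ j := by
  rw [kap, eval₂_finset_sum, Finset.mul_sum]
  refine Finset.sum_congr rfl fun j hj => ?_
  rw [Finset.mem_range] at hj
  rw [eval₂_finset_sum, Finset.mul_sum]
  refine Finset.sum_congr rfl fun i hi => ?_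
  rw [eval₂_mul, eval₂_C, kap_term (by omega) f A B h, map_mul, map_pow]
  ring

theorem kap_natDegree (r : ℕ → ℕ → O) (z A B : O) (e : ℕ) : (kap r z A B e).natDegree ≤ 2 * e := by
  rw [kap]
  refine natDegree_sum_le_of_forall_le _ _ fun j hj => ?_
  rw [Finset.mem_range] at hj
  refine natDegree_sum_le_of_forall_le _ _ fun i hi => ?_
  rw [Finset.mem_range] at hi
  refine (natDegree_C_mul_le _ _).trans ?_
  have h1 : (C A * X ^ 2 + C B : O[X]).natDegree ≤ 2 := by
    refine (natDegree_add_le _ _).trans ?_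
    rw [natDegree_C]
    exact max_le ((natDegree_C_mul_X_pow_le _ _)) (by norm_num)
  have h2 : ((C A * X ^ 2 + C B : O[X]) ^ j).natDegree ≤ j * 2 := natDegree_pow_le_of_le j h1
  have h3 : (X ^ (e + i - j) : O[X]).natDegree ≤ e + i - j := natDegree_X_pow_le _
  refine (natDegree_mul_le_of_le h3 h2).trans ?_
  omega

theorem kap_coeff_zero (r : ℕ → ℕ → O) (z A B : O) (e : ℕ) :
    (kap r z A B e).coeff 0 = r e 0 * B ^ e := by
  rw [kap, finset_sum_coeff, Finset.sum_eq_single e]
  · rw [finset_sum_coeff, Finset.sum_eq_single 0]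
    · simp [coeff_zero_eq_eval_zero]
    · intro i hi h0
      rw [Finset.mem_range] at hi
      omega
    · intro h
      exact absurd (Finset.mem_range.2 (by omega)) h
  · intro j hj hne
    rw [Finset.mem_range] at hj
    rw [finset_sum_coeff]
    refine Finset.sum_eq_zero fun i hi => ?_
    rw [coeff_C_mul, coeff_X_pow_mul', if_neg (by omega), mul_zero]
  · intro h
    exact absurd (Finset.mem_range.2 (by omega)) h

theorem kap_coeff_top (r : ℕ → ℕ → O) (z A B : O) (e : ℕ) :
    (kap r z A B e).coeff (2 * e) = ∑ j ∈ Finset.range (e + 1), r j (e - j) * z ^ (e - j) * A ^ j := by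
  have h1 : (C A * X ^ 2 + C B : O[X]).natDegree ≤ 2 := by
    refine (natDegree_add_le _ _).trans ?_
    rw [natDegree_C]
    exact max_le ((natDegree_C_mul_X_pow_le _ _)) (by norm_num)
  rw [kap, finset_sum_coeff]
  refine Finset.sum_congr rfl fun j hj => ?_
  rw [Finset.mem_range] at hj
  rw [finset_sum_coeff, Finset.sum_eq_single (e - j)]
  · rw [coeff_C_mul, coeff_X_pow_mul', if_pos (by omega)]
    have h2 := coeff_pow_of_natDegree_le h1 (m := j)
    have h3 : 2 * e - (e + (e - j) - j) = j * 2 := by omega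
    rw [h3, h2]
    congr 2
    simp [coeff_C]
  · intro i hi hne
    rw [Finset.mem_range] at hi
    rw [coeff_C_mul, coeff_X_pow_mul', if_pos (by omega)]
    have h2 : ((C A * X ^ 2 + C B : O[X]) ^ j).natDegree ≤ j * 2 := natDegree_pow_le_of_le j h1
    rw [coeff_eq_zero_of_natDegree_lt (by omega), mul_zero]
  · intro h
    exact absurd (Finset.mem_range.2 (by omega)) h

/-- evaluation of the reflected polynomial -/
theorem reflect_eval {p : O[X]} {n : ℕ} (hp : p.natDegree ≤ n) (f : O →+* S) {x y : S}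
    (h : x * y = 1) : (reflect n p).eval₂ f x = x ^ n * p.eval₂ f y := by
  haveI : Invertible y := ⟨x, h, by rw [mul_comm]; exact h⟩
  have h1 := eval₂_reflect_mul_pow f y n p hp
  have h2 : (⅟y : S) = x := invOf_eq_left_inv h
  rw [h2] at h1
  rw [← h1]
  have h3 : x ^ n * y ^ n = 1 := by rw [← mul_pow, h, one_pow]
  linear_combination (-(reflect n p).eval₂ f x) * h3

end

end Vale.Agent.P097.H779.Disc
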