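import Vale.Agent.P097.H779.Disc.EV

/-! # P097 / H779 / Disc : the mirror identity -/

set_option linter.all false

namespace Vale.Agent.P097.H779.Disc

open PowerSeries Vale.Agent.P097.Disc

/-- the field of the pencil variable -/
abbrev LL : Type := RatFunc ℂ

/-- `R(z x, A x + B / x)` -/
noncomputable def ev (a : ℕ → ℂ) (R : Polynomial (Polynomial ℂ)) (x : LL) : PowerSeries LL :=
  R.eval₂ (Polynomial.eval₂RingHom ((PowerSeries.C : LL →+* PowerSeries LL).comp (algebraMap ℂ LL))
    (PowerSeries.X * PowerSeries.C x)) (pz a x)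

/-- `A x - B / x` -/
noncomputable def mz (a : ℕ → ℂ) (x : LL) : PowerSeries LL :=
  PowerSeries.mk fun n => algebraMap ℂ LL (Ac a n) * x - algebraMap ℂ LL (Bc a n) * x⁻¹

/-- `Π = (A x - B / x) Q - P` -/
noncomputable def PI (a : ℕ → ℂ) (P Q : Polynomial (Polynomial ℂ)) (x : LL) : PowerSeries LL :=
  mz a x * ev a Q x - ev a P x

/-- `ρ = h - D² h` -/
noncomputable def rho (a : ℕ → ℂ) : PowerSeries LL :=
  PowerSeries.mk fun n => algebraMap ℂ LL ((1 - (n : ℂ) ^ 2) * a n)

/-- the coefficient of `N ^ i` as a polynomial in `p` -/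
noncomputable def cN (R : Polynomial (Polynomial ℂ)) (i : ℕ) : Polynomial ℂ :=
  ∑ j ∈ R.support, Polynomial.monomial j ((R.coeff j).coeff i)

theorem cN_coeff (R : Polynomial (Polynomial ℂ)) (i j : ℕ) :
    (cN R i).coeff j = (R.coeff j).coeff i := by
  rw [cN, Polynomial.finset_sum_coeff]
  simp only [Polynomial.coeff_monomial]
  rw [Finset.sum_ite_eq']
  split_ifs with h
  · rfl
  · rw [Polynomial.notMem_support_iff.1 h, Polynomial.coeff_zero]

theorem cN_add (R S : Polynomial (Polynomial ℂ)) (i : ℕ) : cN (R + S) i = cN R i + cN S i := by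
  ext j
  rw [Polynomial.coeff_add, cN_coeff, cN_coeff, cN_coeff, Polynomial.coeff_add,
    Polynomial.coeff_add]

theorem cN_monomial (j m i : ℕ) (c : ℂ) :
    cN (Polynomial.monomial j (Polynomial.monomial m c)) i =
      if i = m then Polynomial.monomial j c else 0 := by
  ext l
  rw [cN_coeff, Polynomial.coeff_monomial]
  by_cases h1 : j = l
  · rw [if_pos h1, Polynomial.coeff_monomial]
    by_cases h2 : i = m
    · rw [if_pos h2, if_pos h2.symm, Polynomial.coeff_monomial, if_pos h1]
    · rw [if_neg h2, if_neg (fun h => h2 h.symm), Polynomial.coeff_zero]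
  · rw [if_neg h1, Polynomial.coeff_zero]
    split_ifs with h2
    · rw [Polynomial.coeff_monomial, if_neg h1]
    · rw [Polynomial.coeff_zero]

theorem T_single (m : ℕ) (G : PowerSeries LL) :
    T (fun i => if i = m then G else 0) = X ^ m * G := by
  ext n
  rw [coeff_T, coeff_X_pow_mul']
  split_ifs with h
  · rw [Finset.sum_eq_single m]
    · rw [if_pos rfl]
    · intro i _ hi
      rw [if_neg hi, map_zero]
    · intro h1
      exact absurd (Finset.mem_range.2 (by omega)) h1
  · refine Finset.sum_eq_zero fun i hi => ?_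
    rw [Finset.mem_range] at hi
    rw [if_neg (by omega), map_zero]

theorem T_mul_const (G : ℕ → PowerSeries LL) (f : PowerSeries LL) :
    T (fun i => G i * f) = T G * f := by
  have h1 := T_mul G (fun i => if i = 0 then f else 0)
  rw [T_single, pow_zero, one_mul] at h1
  rw [h1]
  congr 1
  funext n
  rw [Finset.sum_eq_single (n, 0)]
  · simp
  · rintro ⟨i, j⟩ hij hne
    rw [Finset.HasAntidiagonal.mem_antidiagonal] at hij
    have : j ≠ 0 := by
      rintro rfl
      apply hne
      simp only at hij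
      rw [add_zero] at hij
      rw [hij]
    simp [this]
  · intro h
    exact absurd (by rw [Finset.HasAntidiagonal.mem_antidiagonal]; simp) h

theorem ev_T (a : ℕ → ℂ) (R : Polynomial (Polynomial ℂ)) (x : LL) :
    ev a R x = T (fun i => C (x ^ i) * Polynomial.aeval (pz a x) (cN R i)) := by
  induction R using Polynomial.induction_on' with
  | add p q hp hq =>
    rw [ev, Polynomial.eval₂_add, ← ev, ← ev, hp, hq, ← T_add]
    congr 1
    funext i
    rw [cN_add, map_add, mul_add]
  | monomial j r =>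
    induction r using Polynomial.induction_on' with
    | add p q hp hq =>
      rw [map_add, ev, Polynomial.eval₂_add, ← ev, ← ev, hp, hq, ← T_add]
      congr 1
      funext i
      rw [cN_add, map_add, mul_add]
    | monomial m c =>
      rw [ev, Polynomial.eval₂_monomial, Polynomial.coe_eval₂RingHom, Polynomial.eval₂_monomial]
      have h1 : (fun i => C (x ^ i) * Polynomial.aeval (pz a x) (cN (Polynomial.monomial j
          (Polynomial.monomial m c)) i)) = fun i => if i = m then
          C (x ^ m) * (algebraMap ℂ (PowerSeries LL) c * pz a x ^ j) else 0 := by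
        funext i
        rw [cN_monomial]
        split_ifs with h
        · rw [h, Polynomial.aeval_monomial]
        · rw [map_zero, mul_zero]
      rw [h1, T_single]
      have h2 : algebraMap ℂ (PowerSeries LL) c = C (algebraMap ℂ LL c) :=
        PowerSeries.algebraMap_apply
      rw [h2, mul_pow, ← map_pow]
      simp only [RingHom.coe_comp, Function.comp_apply]
      ring

/-! the relation between the label and `P`, `Q` -/

/-- `P ∂_p Q_l + Q N ∂_N Q_l = 0` -/
def REL (P Q : Polynomial (Polynomial ℂ)) (Ql : ℕ → RatFunc ℂ) : Prop :=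
  ∀ n, ∑ ij ∈ Finset.HasAntidiagonal.antidiagonal n,
    (algebraMap (Polynomial ℂ) (RatFunc ℂ) (cN P ij.1) * dR (Ql ij.2) +
      algebraMap (Polynomial ℂ) (RatFunc ℂ) (cN Q ij.1) * ((ij.2 : ℕ) : RatFunc ℂ) * Ql ij.2) = 0

noncomputable def Wx (a : ℕ → ℂ) (Ql : ℕ → RatFunc ℂ) (x : LL) : PowerSeries LL :=
  T (fun i => C (x ^ i) * evR (Ql i) (pz a x))

noncomputable def Nx (a : ℕ → ℂ) (Ql : ℕ → RatFunc ℂ) (x : LL) : PowerSeries LL :=
  T (fun i => (i : PowerSeries LL) * (C (x ^ i) * evR (Ql i) (pz a x)))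

noncomputable def Px (a : ℕ → ℂ) (Ql : ℕ → RatFunc ℂ) (x : LL) : PowerSeries LL :=
  T (fun i => C (x ^ i) * evR (dR (Ql i)) (pz a x))

theorem rel_ev {a : ℕ → ℂ} {x : LL} (hx : Gen (pz a x)) {P Q : Polynomial (Polynomial ℂ)}
    {Ql : ℕ → RatFunc ℂ} (h : REL P Q Ql) :
    ev a P x * Px a Ql x + ev a Q x * Nx a Ql x = 0 := by
  rw [ev_T, ev_T, Px, Nx, T_mul, T_mul, ← T_add, ← T_zero]
  congr 1
  funext n
  have h1 := congrArg (fun r => C (x ^ n) * evR r (pz a x)) (h n)
  simp only [evR_zero hx, mul_zero] at h1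
  rw [← h1, ← Finset.sum_add_distrib, evR_sum hx, Finset.mul_sum]
  refine Finset.sum_congr rfl fun ij hij => ?_
  rw [Finset.HasAntidiagonal.mem_antidiagonal] at hij
  rw [evR_add hx, evR_mul hx, evR_mul hx, evR_mul hx, evR_algebraMap hx, evR_algebraMap hx,
    evR_natCast hx, ← hij, _root_.pow_add, map_mul]
  ring

end Vale.Agent.P097.H779.Disc
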