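import Vale.Agent.P097.H779.Disc.MI
import Vale.Agent.P097.H123.D3Defs

/-! # P097 / H779 / Disc : the mirror identity -/

set_option linter.all false

namespace Vale.Agent.P097.H779.Disc

open PowerSeries Vale.Agent.P097.Disc

/-! transcendence of the constant term -/

theorem not_alg {c : LL} (hc : c ∉ (algebraMap ℂ LL).range) {q : Polynomial ℂ} (hq : q ≠ 0) :
    Polynomial.aeval c q ≠ 0 := by
  intro h
  have h1 : IsIntegral ℂ c := (show IsAlgebraic ℂ c from ⟨q, hq, h⟩).isIntegral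
  have h2 := IsAlgClosed.degree_eq_one_of_irreducible ℂ (minpoly.irreducible h1)
  exact hc (minpoly.mem_range_of_degree_eq_one ℂ c h2)

theorem half_not_const : ((RatFunc.X : LL) + RatFunc.X⁻¹) / 2 ∉ (algebraMap ℂ LL).range := by
  rintro ⟨c, hc⟩
  have hX : (RatFunc.X : LL) ≠ 0 := RatFunc.X_ne_zero
  have h1 : (RatFunc.X : LL) ^ 2 - algebraMap ℂ LL (2 * c) * RatFunc.X + 1 = 0 := by
    rw [map_mul, hc]
    have : algebraMap ℂ LL 2 = 2 := map_ofNat _ 2
    rw [this]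
    field_simp
    ring
  apply RatFunc.transcendental_X (K := ℂ)
  refine ⟨Polynomial.X ^ 2 - Polynomial.C (2 * c) * Polynomial.X + 1, ?_, ?_⟩
  · intro h
    have := congrArg (fun p => Polynomial.coeff p 2) h
    simp [Polynomial.coeff_one, Polynomial.coeff_X] at this
  · simpa [map_sub, map_add, map_mul] using h1

theorem gen_pz {a : ℕ → ℂ} (ha : a 0 = 1) {x : LL}
    (hx : (x + x⁻¹) / 2 = ((RatFunc.X : LL) + RatFunc.X⁻¹) / 2) : Gen (pz a x) := by
  intro q hq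
  have h0 : constantCoeff (pz a x) = ((RatFunc.X : LL) + RatFunc.X⁻¹) / 2 := by
    rw [← hx, ← PowerSeries.coeff_zero_eq_constantCoeff_apply, pz, coeff_mk, Ac, Bc, ha]
    have e : algebraMap ℂ LL (1 / 2) = 1 / 2 := by
      rw [map_div₀, map_one, map_ofNat]
    simp only [Nat.cast_zero, add_zero, sub_zero, one_mul]
    rw [e]
    ring
  have h1 : constantCoeff (Polynomial.aeval (pz a x) q) =
      Polynomial.aeval (constantCoeff (pz a x)) q := by
    rw [Polynomial.aeval_def, Polynomial.hom_eval₂, Polynomial.aeval_def]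
    congr 1
  rw [h1, h0]
  exact not_alg half_not_const hq

theorem gen_X {a : ℕ → ℂ} (ha : a 0 = 1) : Gen (pz a (RatFunc.X : LL)) := gen_pz ha rfl

theorem gen_Xinv {a : ℕ → ℂ} (ha : a 0 = 1) : Gen (pz a (RatFunc.X : LL)⁻¹) := by
  apply gen_pz ha
  rw [inv_inv, add_comm]

/-! the two derivations -/

theorem Ez_chain {a : ℕ → ℂ} {x : LL} (hx : Gen (pz a x)) (Ql : ℕ → RatFunc ℂ) :
    Ez (Wx a Ql x) = Nx a Ql x + Px a Ql x * Ez (pz a x) := by
  rw [Wx, Ez_T, Nx, Px, ← T_mul_const, ← T_add]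
  congr 1
  funext i
  have h1 : Ez (evR (Ql i) (pz a x)) = evR (dR (Ql i)) (pz a x) * Ez (pz a x) :=
    chain_evR Ez_add Ez_mul (fun c => by rw [PowerSeries.algebraMap_apply, Ez_C]) hx _
  rw [Ez_mul, Ez_C, h1]
  ring

/-- `x d/dx` on the coefficients -/
noncomputable def xd (r : LL) : LL := RatFunc.X * dR r

theorem xd_add (r s : LL) : xd (r + s) = xd r + xd s := by
  rw [xd, dR_add, xd, xd, mul_add]

theorem xd_mul (r s : LL) : xd (r * s) = xd r * s + r * xd s := by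
  rw [xd, dR_mul, xd, xd]
  ring

theorem xd_C (c : ℂ) : xd (algebraMap ℂ LL c) = 0 := by
  have : algebraMap ℂ LL c = RatFunc.C c := rfl
  rw [xd, this, dR_C, mul_zero]

theorem xd_X : xd RatFunc.X = RatFunc.X := by rw [xd, dR_X, mul_one]

theorem xd_zero : xd 0 = 0 := by rw [xd, dR_zero, mul_zero]

theorem xd_Xinv : xd (RatFunc.X)⁻¹ = - (RatFunc.X)⁻¹ := by
  have hX : (RatFunc.X : LL) ≠ 0 := RatFunc.X_ne_zero
  have h1 := xd_mul (RatFunc.X : LL) (RatFunc.X)⁻¹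
  have h2 : xd (1 : LL) = 0 := by rw [xd, dR_one, mul_zero]
  rw [mul_inv_cancel₀ hX, h2, xd_X] at h1
  apply mul_left_cancel₀ hX
  linear_combination -h1

theorem xd_pow {x e : LL} (h : xd x = e * x) (n : ℕ) : xd (x ^ n) = e * ((n : LL) * x ^ n) := by
  induction n with
  | zero =>
    have h2 : xd (1 : LL) = 0 := by rw [xd, dR_one, mul_zero]
    simp [h2]
  | succ n ih =>
    rw [pow_succ, xd_mul, ih, h]
    push_cast
    ring

noncomputable def Ex : PowerSeries LL → PowerSeries LL := Cw xd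

theorem Ex_add (f g : PowerSeries LL) : Ex (f + g) = Ex f + Ex g := Cw_add xd_add f g

theorem Ex_mul (f g : PowerSeries LL) : Ex (f * g) = Ex f * g + f * Ex g :=
  Cw_mul xd_add xd_mul f g

theorem Ex_Cc (r : LL) : Ex (C r) = C (xd r) := by
  ext n
  rw [Ex, coeff_Cw, coeff_C, coeff_C]
  split_ifs with h
  · rfl
  · exact xd_zero

theorem Ex_chain {a : ℕ → ℂ} {x e : LL} (hx : Gen (pz a x)) (he : xd x = e * x)
    (hp : Ex (pz a x) = C e * mz a x) (Ql : ℕ → RatFunc ℂ) :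
    Ex (Wx a Ql x) = C e * (Nx a Ql x + Px a Ql x * mz a x) := by
  have h2 : Nx a Ql x + Px a Ql x * mz a x = T (fun i =>
      (i : PowerSeries LL) * (C (x ^ i) * evR (Ql i) (pz a x)) +
      C (x ^ i) * evR (dR (Ql i)) (pz a x) * mz a x) := by
    rw [T_add, T_mul_const]
    rfl
  rw [h2, mul_comm (C e), ← T_mul_const, Wx]
  show Cw xd (T _) = _
  rw [Cw_T xd_add]
  congr 1
  funext i
  have h1 : Ex (evR (Ql i) (pz a x)) = evR (dR (Ql i)) (pz a x) * Ex (pz a x) :=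
    chain_evR Ex_add Ex_mul
      (fun c => by rw [PowerSeries.algebraMap_apply, Ex_Cc, xd_C, map_zero]) hx _
  show Ex (C (x ^ i) * evR (Ql i) (pz a x)) = _
  rw [Ex_mul, h1, hp, Ex_Cc, xd_pow he, map_mul, map_mul, map_natCast]
  ring

theorem Ex_pz_X (a : ℕ → ℂ) : Ex (pz a RatFunc.X) = C 1 * mz a RatFunc.X := by
  ext n
  rw [map_one, one_mul, Ex, coeff_Cw, pz, mz, coeff_mk, coeff_mk, xd_add, xd_mul, xd_mul, xd_C,
    xd_C, xd_X, xd_Xinv]
  ring

theorem Ex_pz_Xinv (a : ℕ → ℂ) : Ex (pz a (RatFunc.X)⁻¹) = C (-1) * mz a (RatFunc.X)⁻¹ := by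
  ext n
  rw [map_neg, map_one, neg_one_mul, map_neg, Ex, coeff_Cw, pz, mz, coeff_mk, coeff_mk, xd_add,
    xd_mul, xd_mul, xd_C, xd_C, inv_inv, xd_X, xd_Xinv]
  ring

theorem Ez_pz (a : ℕ → ℂ) (x : LL) :
    2 * Ez (pz a x) = 2 * mz a x - rho a * C (x - x⁻¹) := by
  ext n
  have h2 : (2 : PowerSeries LL) = C 2 := (map_ofNat C 2).symm
  rw [map_sub, h2, coeff_C_mul, coeff_C_mul, coeff_mul_C, coeff_Ez, pz, mz, rho, coeff_mk,
    coeff_mk, coeff_mk]
  have e1 : algebraMap ℂ LL (Ac a n) = (1 + (n : LL)) * algebraMap ℂ LL (a n) / 2 := by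
    rw [Ac, map_div₀, map_mul, map_add, map_one, map_natCast, map_ofNat]
  have e2 : algebraMap ℂ LL (Bc a n) = (1 - (n : LL)) * algebraMap ℂ LL (a n) / 2 := by
    rw [Bc, map_div₀, map_mul, map_sub, map_one, map_natCast, map_ofNat]
  have e3 : algebraMap ℂ LL ((1 - (n : ℂ) ^ 2) * a n) =
      (1 - (n : LL) ^ 2) * algebraMap ℂ LL (a n) := by
    rw [map_mul, map_sub, map_one, map_pow, map_natCast]
  rw [e1, e2, e3]
  ring

/-! nonvanishing -/

theorem Px_ne_zero {a : ℕ → ℂ} {x : LL} (hx : Gen (pz a x)) {Ql : ℕ → RatFunc ℂ}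
    (h0 : Ql 0 = RatFunc.X) : Px a Ql x ≠ 0 := by
  intro h
  have h1 := congrArg (coeff 0) h
  rw [Px, coeff_T, map_zero] at h1
  have h2 : evR (1 : RatFunc ℂ) (pz a x) = 1 := by
    have := evR_algebraMap hx 1
    simpa using this
  simp only [zero_add, Finset.range_one, Finset.sum_singleton, pow_zero, map_one, one_mul,
    Nat.sub_self, h0, dR_X, h2] at h1
  simp at h1

theorem ev_ne_zero {a : ℕ → ℂ} {x : LL} (hx : Gen (pz a x)) {Q : Polynomial (Polynomial ℂ)}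
    (hQ : Q.Monic) : ev a Q x ≠ 0 := by
  intro h
  have h1 := congrArg (coeff 0) h
  rw [ev_T, coeff_T, map_zero] at h1
  simp only [zero_add, Finset.range_one, Finset.sum_singleton, pow_zero, map_one, one_mul,
    Nat.sub_self, coeff_zero_eq_constantCoeff] at h1
  refine hx (cN Q 0) ?_ h1
  intro h2
  have h3 := congrArg (fun p => Polynomial.coeff p Q.natDegree) h2
  simp only [cN_coeff, hQ.coeff_natDegree] at h3
  simp at h3

theorem mirror {a : ℕ → ℂ} (ha : a 0 = 1) {Ql : ℕ → RatFunc ℂ} (hl : IsLabel a Ql)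
    {P Q : Polynomial (Polynomial ℂ)} (hQ : Q.Monic) (hrel : REL P Q Ql) :
    rho a * C (RatFunc.X - (RatFunc.X)⁻¹) *
      (ev a Q RatFunc.X * PI a P Q (RatFunc.X)⁻¹ - ev a Q (RatFunc.X)⁻¹ * PI a P Q RatFunc.X) =
      4 * PI a P Q RatFunc.X * PI a P Q (RatFunc.X)⁻¹ := by
  have g1 := gen_X ha
  have g2 := gen_Xinv ha
  have hW : Wx a Ql RatFunc.X = Wx a Ql (RatFunc.X)⁻¹ := by
    ext n
    have e : ∀ x : LL, coeff n (Wx a Ql x) = Wn a Ql x n := by
      intro x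
      rw [Wx, coeff_T, Wn]
      exact Finset.sum_congr rfl fun i _ => by rw [coeff_C_mul]
    rw [e, e]
    exact hl.2 n
  have hA := congrArg Ex hW
  rw [Ex_chain g1 (e := 1) (by rw [one_mul, xd_X]) (Ex_pz_X a) Ql,
    Ex_chain g2 (e := -1) (by rw [neg_one_mul, xd_Xinv]) (Ex_pz_Xinv a) Ql] at hA
  have hB := congrArg Ez hW
  rw [Ez_chain g1, Ez_chain g2] at hB
  have z1 := Ez_pz a RatFunc.X
  have z2 := Ez_pz a (RatFunc.X)⁻¹
  rw [inv_inv] at z2
  have r1 := rel_ev g1 hrel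
  have r2 := rel_ev g2 hrel
  have n1 := Px_ne_zero g1 hl.1
  have n2 := ev_ne_zero g2 hQ
  have hs : C ((RatFunc.X : LL)⁻¹ - RatFunc.X) = - C ((RatFunc.X : LL) - (RatFunc.X)⁻¹) := by
    rw [← map_neg, neg_sub]
  rw [hs] at z2
  rw [map_neg, map_one, one_mul] at hA
  simp only [PI]
  set x : LL := RatFunc.X
  set s := rho a * C (x - x⁻¹)
  set N1 := Nx a Ql x
  set N2 := Nx a Ql x⁻¹
  set p1 := Px a Ql x
  set p2 := Px a Ql x⁻¹
  set m1 := mz a x
  set m2 := mz a x⁻¹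
  set Q1 := ev a Q x
  set Q2 := ev a Q x⁻¹
  set P1 := ev a P x
  set P2 := ev a P x⁻¹
  set E1 := Ez (pz a x)
  set E2 := Ez (pz a x⁻¹)
  -- (b) doubled
  have hb : 2 * N1 + p1 * (2 * m1 - s) = 2 * N2 + p2 * (2 * m2 + s) := by
    have z2' : 2 * E2 = 2 * m2 + s := by rw [z2]; ring
    rw [← z1, ← z2']
    linear_combination 2 * hB
  have ha' : Q2 * (p1 * (m1 * Q1 - P1)) = - (Q1 * (p2 * (m2 * Q2 - P2))) := by
    linear_combination Q1 * Q2 * hA - Q2 * r1 - Q1 * r2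
  have hb' : Q2 * (4 * (p1 * (m1 * Q1 - P1))) = Q2 * (Q1 * s * (p1 + p2)) := by
    linear_combination Q1 * Q2 * hb - 2 * Q2 * r1 + 2 * Q1 * r2 + 2 * ha'
  have hc' := mul_left_cancel₀ n2 hb'
  apply mul_left_cancel₀ n1
  linear_combination (-(m2 * Q2 - P2)) * hc' - s * ha'

end Vale.Agent.P097.H779.Disc
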