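import Vale.Agent.P097.H779.Disc.LD

/-! # P097 / H779 / Disc : polynomials in a Laurent series `V`, the field `C(V)`, the derivation `d/dV` -/

set_option linter.all false

open HahnSeries

namespace Vale.Agent.P097.H779.Disc

/-- `p ↦ p(V)` -/
noncomputable def pV (V : K) : Polynomial ℂ →+* K := Polynomial.eval₂RingHom (C : ℂ →+* K) V

/-- `d/dV` -/
noncomputable def dl (V : K) (x : K) : K := Dz x / Dz V

variable {V : K}

theorem pV_apply (p : Polynomial ℂ) : pV V p = p.eval₂ (C : ℂ →+* K) V := rfl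

theorem pV_X : pV V Polynomial.X = V := by simp [pV]

theorem pV_C (c : ℂ) : pV V (Polynomial.C c) = C c := by simp [pV]

theorem dl_add (x y : K) : dl V (x + y) = dl V x + dl V y := by
  rw [dl, dl, dl, Dz_add, add_div]

theorem dl_sub (x y : K) : dl V (x - y) = dl V x - dl V y := by
  rw [dl, dl, dl, Dz_sub, sub_div]

theorem dl_mul (x y : K) : dl V (x * y) = dl V x * y + x * dl V y := by
  rw [dl, dl, dl, Dz_mul]
  ring

theorem dl_zero : dl V 0 = 0 := by rw [dl, Dz_zero, zero_div]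

theorem dl_one : dl V 1 = 0 := by rw [dl, Dz_one, zero_div]

theorem dl_C (c : ℂ) : dl V (C c) = 0 := by rw [dl, Dz_C, zero_div]

theorem dl_V (hV : Dz V ≠ 0) : dl V V = 1 := div_self hV

theorem dl_eq_zero (hV : Dz V ≠ 0) {f : K} (h : dl V f = 0) : ∃ c : ℂ, f = C c := by
  apply Dz_eq_zero
  rw [dl, div_eq_zero_iff] at h
  exact h.resolve_right hV

theorem dl_pow {x : K} {g : K} (h : dl V x = g * x) (n : ℕ) :
    dl V (x ^ n) = (n : K) * g * x ^ n := by
  induction n with
  | zero => simp [dl_one]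
  | succ n ih =>
    rw [pow_succ, dl_mul, ih, h]
    push_cast
    ring

theorem dl_pV (hV : Dz V ≠ 0) (p : Polynomial ℂ) :
    dl V (pV V p) = pV V (Polynomial.derivative p) := by
  induction p using Polynomial.induction_on' with
  | add p q hp hq => rw [map_add, dl_add, hp, hq, Polynomial.derivative_add, map_add]
  | monomial m c =>
    rw [Polynomial.derivative_monomial, ← Polynomial.C_mul_X_pow_eq_monomial,
      ← Polynomial.C_mul_X_pow_eq_monomial, map_mul, map_pow, map_mul, map_pow, pV_C, pV_C, pV_X,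
      dl_mul, dl_C, zero_mul, zero_add]
    rcases Nat.eq_zero_or_pos m with h | h
    · subst h
      simp [dl_one]
    · have h1 : V * dl V (V ^ m) = (m : K) * V ^ m := by
        have := Dz_pow V m
        rw [dl, ← mul_div_assoc, this, mul_div_assoc, div_self hV, mul_one]
      have hV0 : V ≠ 0 := fun h => hV (by rw [h, Dz_zero])
      have h2 : V ^ m = V * V ^ (m - 1) := by
        rw [← pow_succ', Nat.sub_add_cancel h]
      have h3 : dl V (V ^ m) = (m : K) * V ^ (m - 1) := by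
        apply mul_left_cancel₀ hV0
        rw [h1, h2]; ring
      rw [h3, C.map_mul, map_natCast]
      ring

theorem C_eq_zero' {c : ℂ} (h : (C c : K) = 0) : c = 0 := by
  have := congrArg (fun f : K => f.coeff 0) h
  simpa [C_apply] using this

theorem pV_eq_zero (hV : Dz V ≠ 0) : ∀ (n : ℕ) (p : Polynomial ℂ), p.natDegree ≤ n → pV V p = 0 →
    p = 0 := by
  intro n
  induction n with
  | zero =>
    intro p hp h
    rw [Polynomial.eq_C_of_natDegree_le_zero hp, pV_C] at h
    rw [Polynomial.eq_C_of_natDegree_le_zero hp]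
    rw [C_eq_zero' h, Polynomial.C_0]
  | succ n ih =>
    intro p hp h
    have h1 := dl_pV hV p
    rw [h, dl_zero] at h1
    have h2 := ih _ (by have := Polynomial.natDegree_derivative_le p; omega) h1.symm
    have h3 := Polynomial.natDegree_eq_zero_of_derivative_eq_zero h2
    have hp' : p.natDegree ≤ 0 := h3.le
    rw [Polynomial.eq_C_of_natDegree_le_zero hp', pV_C] at h
    rw [Polynomial.eq_C_of_natDegree_le_zero hp']
    rw [C_eq_zero' h, Polynomial.C_0]

theorem pV_inj (hV : Dz V ≠ 0) : Function.Injective (pV V) := by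
  rw [injective_iff_map_eq_zero]
  exact fun p h => pV_eq_zero hV _ p le_rfl h

theorem pV_ne_zero (hV : Dz V ≠ 0) {p : Polynomial ℂ} (hp : p ≠ 0) : pV V p ≠ 0 := by
  intro h
  exact hp (pV_eq_zero hV _ p le_rfl h)

/-- the field `C(V)` -/
noncomputable def F (V : K) : Subfield K := Subfield.closure ((pV V).range : Set K)

theorem mem_F (hV : Dz V ≠ 0) {x : K} :
    x ∈ F V ↔ ∃ p q : Polynomial ℂ, q ≠ 0 ∧ x * pV V q = pV V p := by
  rw [F, Subfield.mem_closure_iff, Subring.closure_eq]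
  constructor
  · rintro ⟨a, ⟨p, rfl⟩, b, ⟨q, rfl⟩, h⟩
    by_cases hq : q = 0
    · refine ⟨0, 1, one_ne_zero, ?_⟩
      rw [hq, map_zero, div_zero] at h
      rw [← h]
      simp
    · refine ⟨p, q, hq, ?_⟩
      rw [← h, div_mul_cancel₀ _ (pV_ne_zero hV hq)]
  · rintro ⟨p, q, hq, h⟩
    refine ⟨pV V p, ⟨p, rfl⟩, pV V q, ⟨q, rfl⟩, ?_⟩
    rw [← h, mul_div_cancel_right₀ _ (pV_ne_zero hV hq)]

theorem pV_mem (p : Polynomial ℂ) : pV V p ∈ F V := Subfield.subset_closure ⟨p, rfl⟩

theorem C_mem (c : ℂ) : (C c : K) ∈ F V := by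
  rw [← pV_C (V := V)]; exact pV_mem _

theorem V_mem : V ∈ F V := by
  have := pV_mem (V := V) Polynomial.X
  rwa [pV_X] at this

theorem dl_mem (hV : Dz V ≠ 0) {x : K} (hx : x ∈ F V) : dl V x ∈ F V := by
  obtain ⟨p, q, hq, h⟩ := (mem_F hV).1 hx
  have h1 := congrArg (dl V) h
  rw [dl_mul] at h1
  have hq' := pV_ne_zero hV hq
  have h2 : dl V x = (dl V (pV V p) - x * dl V (pV V q)) / pV V q := by
    rw [eq_div_iff hq']
    linear_combination h1
  rw [h2, dl_pV hV, dl_pV hV]
  exact (F V).div_mem ((F V).sub_mem (pV_mem _) ((F V).mul_mem hx (pV_mem _))) (pV_mem q)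

theorem mem_of_pow (hV : Dz V ≠ 0) {x : K} (hx : x ∈ F V) {n : ℕ} (hn : n ≠ 0)
    {P : Polynomial ℂ} (h : x ^ n = pV V P) : ∃ G : Polynomial ℂ, x = pV V G := by
  obtain ⟨p, q, hq, h1⟩ := (mem_F hV).1 hx
  have h2 : pV V (P * q ^ n) = pV V (p ^ n) := by
    rw [map_mul, map_pow, map_pow, ← h1, mul_pow, h]
  have h3 : q ^ n ∣ p ^ n := ⟨P, by rw [← pV_inj hV h2]; ring⟩
  rw [IsIntegrallyClosed.pow_dvd_pow_iff hn] at h3
  obtain ⟨G, hG⟩ := h3
  refine ⟨G, ?_⟩
  rw [hG, map_mul, mul_comm (pV V q)] at h1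
  exact mul_right_cancel₀ (pV_ne_zero hV hq) h1

end Vale.Agent.P097.H779.Disc
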