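import Mathlib

/-! # P097 / H779 / Disc : the derivative of rational functions -/

set_option linter.all false

namespace Vale.Agent.P097.H779.Disc

open Polynomial

variable {k : Type*} [Field k]

/-- the derivative of a rational function -/
noncomputable def dR (r : RatFunc k) : RatFunc k :=
  (algebraMap k[X] (RatFunc k) (derivative r.num) * algebraMap k[X] (RatFunc k) r.denom -
    algebraMap k[X] (RatFunc k) r.num * algebraMap k[X] (RatFunc k) (derivative r.denom)) /
      (algebraMap k[X] (RatFunc k) r.denom) ^ 2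

theorem dR_div (p q : k[X]) (hq : q ≠ 0) :
    dR (algebraMap k[X] (RatFunc k) p / algebraMap k[X] (RatFunc k) q) =
      (algebraMap k[X] (RatFunc k) (derivative p) * algebraMap k[X] (RatFunc k) q -
        algebraMap k[X] (RatFunc k) p * algebraMap k[X] (RatFunc k) (derivative q)) /
          (algebraMap k[X] (RatFunc k) q) ^ 2 := by
  set r := algebraMap k[X] (RatFunc k) p / algebraMap k[X] (RatFunc k) q with hr
  have hq' : algebraMap k[X] (RatFunc k) q ≠ 0 := RatFunc.algebraMap_ne_zero hq
  have hd' : algebraMap k[X] (RatFunc k) r.denom ≠ 0 := RatFunc.algebraMap_ne_zero r.denom_ne_zero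
  have h1 : r.num * q = p * r.denom := by
    apply RatFunc.algebraMap_injective k
    rw [map_mul, map_mul]
    have h2 := RatFunc.num_div_denom r
    rw [hr] at h2
    rw [← hr] at h2
    rw [div_eq_iff hd'] at h2
    rw [h2, hr]
    field_simp
  have h2 := congrArg derivative h1
  rw [derivative_mul, derivative_mul] at h2
  have e1 := congrArg (algebraMap k[X] (RatFunc k)) h1
  have e2 := congrArg (algebraMap k[X] (RatFunc k)) h2
  simp only [map_add, map_mul] at e1 e2
  rw [dR, div_eq_div_iff (pow_ne_zero _ hd') (pow_ne_zero _ hq')]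
  set A := algebraMap k[X] (RatFunc k) r.num
  set B := algebraMap k[X] (RatFunc k) r.denom
  set A' := algebraMap k[X] (RatFunc k) (derivative r.num)
  set B' := algebraMap k[X] (RatFunc k) (derivative r.denom)
  set P := algebraMap k[X] (RatFunc k) p
  set Q := algebraMap k[X] (RatFunc k) q
  set P' := algebraMap k[X] (RatFunc k) (derivative p)
  set Q' := algebraMap k[X] (RatFunc k) (derivative q)
  linear_combination (B * Q) * e2 - (B' * Q + Q' * B) * e1

theorem exists_rep (r : RatFunc k) : ∃ p q : k[X], q ≠ 0 ∧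
    r = algebraMap k[X] (RatFunc k) p / algebraMap k[X] (RatFunc k) q :=
  ⟨r.num, r.denom, r.denom_ne_zero, (RatFunc.num_div_denom r).symm⟩

theorem dR_algebraMap (p : k[X]) :
    dR (algebraMap k[X] (RatFunc k) p) = algebraMap k[X] (RatFunc k) (derivative p) := by
  have := dR_div p 1 one_ne_zero
  simpa using this

theorem dR_add (r s : RatFunc k) : dR (r + s) = dR r + dR s := by
  obtain ⟨p, q, hq, rfl⟩ := exists_rep r
  obtain ⟨p', q', hq2, rfl⟩ := exists_rep s
  have h1 : algebraMap k[X] (RatFunc k) q ≠ 0 := RatFunc.algebraMap_ne_zero hq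
  have h2 : algebraMap k[X] (RatFunc k) q' ≠ 0 := RatFunc.algebraMap_ne_zero hq2
  rw [div_add_div _ _ h1 h2, ← map_mul, ← map_mul, ← map_add, ← map_mul,
    dR_div _ _ (mul_ne_zero hq hq2), dR_div _ _ hq, dR_div _ _ hq2]
  simp only [derivative_add, derivative_mul, map_add, map_mul]
  field_simp
  ring

theorem dR_mul (r s : RatFunc k) : dR (r * s) = dR r * s + r * dR s := by
  obtain ⟨p, q, hq, rfl⟩ := exists_rep r
  obtain ⟨p', q', hq2, rfl⟩ := exists_rep s
  have h1 : algebraMap k[X] (RatFunc k) q ≠ 0 := RatFunc.algebraMap_ne_zero hq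
  have h2 : algebraMap k[X] (RatFunc k) q' ≠ 0 := RatFunc.algebraMap_ne_zero hq2
  rw [div_mul_div_comm, ← map_mul, ← map_mul,
    dR_div _ _ (mul_ne_zero hq hq2), dR_div _ _ hq, dR_div _ _ hq2]
  simp only [derivative_mul, map_add, map_mul]
  field_simp
  ring

theorem dR_zero : dR (0 : RatFunc k) = 0 := by
  have := dR_algebraMap (0 : k[X])
  simpa using this

theorem dR_one : dR (1 : RatFunc k) = 0 := by
  have := dR_algebraMap (1 : k[X])
  simpa using this

theorem dR_C (c : k) : dR (RatFunc.C c : RatFunc k) = 0 := by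
  have := dR_algebraMap (Polynomial.C c : k[X])
  simpa using this

theorem dR_X : dR (RatFunc.X : RatFunc k) = 1 := by
  have := dR_algebraMap (Polynomial.X : k[X])
  simpa using this

end Vale.Agent.P097.H779.Disc
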