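import Vale.Agent.P097.H779.Disc.Mirror
import Vale.Agent.P097.H123.Bez

/-! # P097 / H779 / Disc : glue for [S4] -/

set_option linter.all false

namespace Vale.Agent.P097.H779.Disc

open PowerSeries Vale.Agent.P097.Disc

theorem rD_eq (r : RatFunc ℂ) : D3.rD r = dR r := by
  rw [D3.rD, dR, D3.pr, D3.pr, map_sub, map_mul, map_mul]

theorem cN_eq (R : Polynomial (Polynomial ℂ)) (i : ℕ) : D3.cN R i = cN R i := by
  ext j
  rw [D3.cN_coeff, cN_coeff]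

theorem REL_of {a : ℕ → ℂ} {Ql F : ℕ → RatFunc ℂ} {d : ℕ} {P Q : Polynomial (Polynomial ℂ)}
    (h1 : D3.IsSlope Ql F) (h2 : D3.RatFol F d P Q) : REL P Q Ql := by
  intro n
  have := D3.rel_of h1 h2 n
  simp only [rD_eq, cN_eq] at this
  exact this

/-- (MI) in the notation of `D3Defs` -/
theorem MI_of {a : ℕ → ℂ} (ha : a 0 = 1) {Ql F : ℕ → RatFunc ℂ} {d : ℕ}
    {P Q : Polynomial (Polynomial ℂ)} (hl : IsLabel a Ql)
    (h1 : D3.IsSlope Ql F) (h2 : D3.RatFol F d P Q) :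
    D3.rhoP a * PowerSeries.C (RatFunc.X - (RatFunc.X)⁻¹) *
      (D3.evP a Q RatFunc.X * D3.PiP a P Q (RatFunc.X)⁻¹ -
        D3.evP a Q (RatFunc.X)⁻¹ * D3.PiP a P Q RatFunc.X) =
      4 * D3.PiP a P Q RatFunc.X * D3.PiP a P Q (RatFunc.X)⁻¹ :=
  mirror ha hl h2.monic (REL_of (a := a) h1 h2)

end Vale.Agent.P097.H779.Disc
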