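import Vale.Agent.P097.H779.Disc.Cop
import Vale.Agent.P097.H779.Disc.S4

/-! # P097 / H779 / Disc : (C1) and (C2) from the mirror identity -/

set_option linter.all false

namespace Vale.Agent.P097.H779.Disc

open Polynomial Vale.Agent.P097.Disc

/-- coefficients of the pencil ring in `L[[z]]` -/
noncomputable def fL : PowerSeries ℂ →+* PowerSeries LL := PowerSeries.map (algebraMap ℂ LL)

noncomputable def Aps (a : ℕ → ℂ) : PowerSeries ℂ := PowerSeries.mk (Ac a)
noncomputable def Bps (a : ℕ → ℂ) : PowerSeries ℂ := PowerSeries.mk (Bc a)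
noncomputable def Rps (a : ℕ → ℂ) : PowerSeries ℂ := PowerSeries.mk fun n => (1 - (n : ℂ) ^ 2) * a n

theorem fL_inj : Function.Injective fL := by
  intro p q h
  ext n
  have := congrArg (PowerSeries.coeff n) h
  rw [fL, PowerSeries.coeff_map, PowerSeries.coeff_map] at this
  exact (algebraMap ℂ LL).injective this

theorem fL_pz (a : ℕ → ℂ) (x : LL) :
    fL (Aps a) * PowerSeries.C x + fL (Bps a) * PowerSeries.C x⁻¹ = pz a x := by
  ext n
  rw [map_add, PowerSeries.coeff_mul_C, PowerSeries.coeff_mul_C, fL, PowerSeries.coeff_map,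
    PowerSeries.coeff_map, Aps, Bps, PowerSeries.coeff_mk, PowerSeries.coeff_mk, pz,
    PowerSeries.coeff_mk]

theorem fL_rho (a : ℕ → ℂ) : fL (Rps a) = rho a := by
  ext n
  rw [fL, PowerSeries.coeff_map, Rps, rho, PowerSeries.coeff_mk, PowerSeries.coeff_mk]

theorem fL_mz (a : ℕ → ℂ) (x : LL) :
    fL (Aps a) * PowerSeries.C x - fL (Bps a) * PowerSeries.C x⁻¹ = mz a x := by
  ext n
  rw [map_sub, PowerSeries.coeff_mul_C, PowerSeries.coeff_mul_C, fL, PowerSeries.coeff_map,
    PowerSeries.coeff_map, Aps, Bps, PowerSeries.coeff_mk, PowerSeries.coeff_mk, mz,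
    PowerSeries.coeff_mk]

theorem kapL (a : ℕ → ℂ) {R : ℂ[X][X]} {e : ℕ}
    (hR : ∀ i j, e < i + j → (R.coeff j).coeff i = 0) {x : LL} (hx : x ≠ 0) :
    (kapR (Aps a) (Bps a) R e).eval₂ fL (PowerSeries.C x) = PowerSeries.C x ^ e * ev a R x := by
  have hxy : PowerSeries.C x * PowerSeries.C x⁻¹ = 1 := by
    rw [← map_mul, mul_inv_cancel₀ hx, map_one]
  rw [kapR_eval fL _ _ hR hxy, fL_pz, ev]
  congr 3
  · exact RingHom.ext fun c => by
      rw [RingHom.comp_apply, RingHom.comp_apply, fL, PowerSeries.map_C]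
  · rw [fL, PowerSeries.map_X]

/-- evaluation at the generic point of the pencil is injective -/
theorem theta_inj {f g : (PowerSeries ℂ)[X]}
    (h : f.eval₂ fL (PowerSeries.C (RatFunc.X : LL)) = g.eval₂ fL (PowerSeries.C (RatFunc.X : LL))) :
    f = g := by
  rw [← sub_eq_zero]
  set u := f - g with hu
  have h1 : u.eval₂ fL (PowerSeries.C (RatFunc.X : LL)) = 0 := by
    rw [hu, eval₂_sub, h, sub_self]
  by_contra hne
  obtain ⟨j0, hj0⟩ : ∃ j, u.coeff j ≠ 0 := by
    by_contra h2
    push Not at h2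
    exact hne (by ext j : 1; rw [h2 j, coeff_zero])
  obtain ⟨n, hn⟩ : ∃ n, PowerSeries.coeff n (u.coeff j0) ≠ 0 := by
    by_contra h2
    push Not at h2
    exact hj0 (by ext n; rw [h2 n, map_zero])
  -- the polynomial of `n`-th coefficients
  set q : ℂ[X] := ∑ j ∈ Finset.range (u.natDegree + 1),
    monomial j (PowerSeries.coeff n (u.coeff j)) with hq
  have h3 : algebraMap ℂ[X] LL q = 0 := by
    have h4 := congrArg (PowerSeries.coeff n) h1
    rw [eval₂_eq_sum_range, map_sum, map_zero] at h4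
    rw [hq, map_sum, ← h4]
    refine Finset.sum_congr rfl fun j _ => ?_
    rw [← map_pow, PowerSeries.coeff_mul_C, fL, PowerSeries.coeff_map,
      ← Polynomial.C_mul_X_pow_eq_monomial, map_mul, map_pow, RatFunc.algebraMap_X]
    rfl
  have h4 : q = 0 := by
    by_contra h5
    exact RatFunc.algebraMap_ne_zero h5 h3
  have h5 := congrArg (fun p : ℂ[X] => p.coeff j0) h4
  simp only [hq, finset_sum_coeff, coeff_monomial, coeff_zero] at h5
  rw [Finset.sum_ite_eq' (Finset.range (u.natDegree + 1)) j0, if_pos] at h5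
  · exact hn h5
  · rw [Finset.mem_range]
    exact Nat.lt_succ_of_le (le_natDegree_of_ne_zero hj0)

/-- the divisibility argument: from the mirror identity to `π' = - π` -/
theorem anti {a : ℕ → ℂ} (ha : a 0 = 1) {e : ℕ} {P Q : ℂ[X][X]} (hQ : Q.Monic)
    (hQd : Q.natDegree = e)
    (hQt : ∀ i j, e < i + j → (Q.coeff j).coeff i = 0)
    (hPt : ∀ i j, e + 1 < i + j → (P.coeff j).coeff i = 0)
    (hP0 : ∀ j, (P.coeff j).coeff 0 = 0)
    (hcop : ∃ (U W : ℂ[X][X]) (r : ℂ[X]), r ≠ 0 ∧ U * P + W * Q = C r)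
    {κ π κ' π' : (PowerSeries ℂ)[X]} (hκ : κ = kapR (Aps a) (Bps a) Q e)
    (hπ : π = (C (Aps a) * X ^ 2 - C (Bps a)) * κ - kapR (Aps a) (Bps a) P (e + 1))
    (hκ' : κ' = reflect (2 * e) κ) (hπ' : π' = reflect (2 * (e + 1)) π)
    (hMI : C (Rps a) * (X ^ 2 - 1) * (κ * π' - κ' * π) = 4 * π * π') :
    π' = -π ∧ π ≠ 0 := by
  have hA0 : PowerSeries.constantCoeff (Aps a) = 1 / 2 := by
    rw [← PowerSeries.coeff_zero_eq_constantCoeff_apply, Aps, PowerSeries.coeff_mk, Ac, ha]
    norm_num
  have hB0 : PowerSeries.constantCoeff (Bps a) = 1 / 2 := by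
    rw [← PowerSeries.coeff_zero_eq_constantCoeff_apply, Bps, PowerSeries.coeff_mk, Bc, ha]
    norm_num
  have hR0 : PowerSeries.constantCoeff (Rps a) = 1 := by
    rw [← PowerSeries.coeff_zero_eq_constantCoeff_apply, Rps, PowerSeries.coeff_mk, ha]
    norm_num
  have hQe : (Q.coeff e).coeff 0 = 1 := by
    rw [← hQd, hQ.coeff_natDegree, coeff_one_zero]
  -- degrees and extreme coefficients
  have dκ : κ.natDegree ≤ 2 * e := by rw [hκ]; exact kap_natDegree _ _ _ _ _
  have dP : (kapR (Aps a) (Bps a) P (e + 1)).natDegree ≤ 2 * (e + 1) := kap_natDegree _ _ _ _ _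
  have dq : (C (Aps a) * X ^ 2 - C (Bps a) : (PowerSeries ℂ)[X]).natDegree ≤ 2 := by
    refine (natDegree_sub_le _ _).trans ?_
    rw [natDegree_C]
    exact max_le (natDegree_C_mul_X_pow_le _ _) (by norm_num)
  have dπ : π.natDegree ≤ 2 * (e + 1) := by
    rw [hπ]
    refine (natDegree_sub_le _ _).trans (max_le ?_ dP)
    refine (natDegree_mul_le_of_le dq dκ).trans ?_
    omega
  have c0 : π.coeff 0 = - Bps a ^ (e + 1) := by
    rw [hπ, coeff_sub, mul_coeff_zero, kapR, kap_coeff_zero, hκ, kapR, kap_coeff_zero, hQe, hP0]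
    simp [coeff_C]
    ring
  have ctop : PowerSeries.constantCoeff (π.coeff (2 * (e + 1))) = (1 / 2) ^ (e + 1) := by
    have h1 : ((C (Aps a) * X ^ 2 - C (Bps a)) * κ).coeff (2 * (e + 1)) =
        Aps a * κ.coeff (2 * e) := by
      have := coeff_mul_add_eq_of_natDegree_le dq dκ
      rw [show 2 * (e + 1) = 2 + 2 * e by ring, this]
      congr 1
      simp [coeff_C]
    have h2 : PowerSeries.constantCoeff (κ.coeff (2 * e)) = (1 / 2) ^ e := by
      rw [hκ, kapR, kap_coeff_top, map_sum, Finset.sum_eq_single e]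
      · rw [Nat.sub_self, pow_zero, mul_one, map_mul, map_pow, hQe, hA0]
        simp
      · intro j hj hne
        rw [Finset.mem_range] at hj
        rw [map_mul, map_mul, map_pow, PowerSeries.constantCoeff_X, zero_pow (by omega)]
        ring
      · intro h
        exact absurd (Finset.mem_range.2 (by omega)) h
    have h3 : PowerSeries.constantCoeff ((kapR (Aps a) (Bps a) P (e + 1)).coeff (2 * (e + 1))) = 0 := by
      rw [kapR, kap_coeff_top, map_sum]
      refine Finset.sum_eq_zero fun j hj => ?_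
      rw [Finset.mem_range] at hj
      rcases Nat.eq_zero_or_pos (e + 1 - j) with h | h
      · rw [h, hP0]
        simp
      · rw [map_mul, map_mul, map_pow, PowerSeries.constantCoeff_X, zero_pow (by omega)]
        ring
    rw [hπ, coeff_sub, h1, map_sub, map_mul, hA0, h2, h3]
    ring
  have hb0 : PowerSeries.constantCoeff (π.coeff 0) = - (1 / 2) ^ (e + 1) := by
    rw [c0, map_neg, map_pow, hB0]
  have hne0 : π.coeff 0 ≠ 0 := by
    intro h
    rw [h, map_zero] at hb0
    have : ((1 : ℂ) / 2) ^ (e + 1) ≠ 0 := pow_ne_zero _ (by norm_num)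
    apply this
    linear_combination hb0
  have hnet : π.coeff (2 * (e + 1)) ≠ 0 := by
    intro h
    rw [h, map_zero] at ctop
    have : ((1 : ℂ) / 2) ^ (e + 1) ≠ 0 := pow_ne_zero _ (by norm_num)
    exact this ctop.symm
  have hπ0 : π ≠ 0 := by
    intro h
    apply hne0
    rw [h, coeff_zero]
  have hdπ : π.natDegree = 2 * (e + 1) := le_antisymm dπ (le_natDegree_of_ne_zero hnet)
  have dπ' : π'.natDegree ≤ 2 * (e + 1) := by
    rw [hπ']
    exact natDegree_reflect_le.trans (max_le le_rfl dπ)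
  -- values at `± 1`
  have ev1 : ∀ s : PowerSeries ℂ, s * s = 1 → π'.eval s = π.eval s := by
    intro s hs
    have h1 := reflect_eval dπ (RingHom.id _) hs
    rw [eval₂_id, eval₂_id, ← hπ', pow_mul, sq, hs, one_pow, one_mul] at h1
    exact h1
  have hroot : ∀ s : PowerSeries ℂ, s * s = 1 → π.eval s = 0 ∧ π'.eval s = 0 := by
    intro s hs
    have h1 := congrArg (Polynomial.eval s) hMI
    simp only [eval_mul, eval_sub, eval_pow, eval_X, eval_one, eval_C, sq, hs, sub_self, mul_zero,
      zero_mul, ev1 s hs] at h1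
    have h2 : (4 : (PowerSeries ℂ)[X]).eval s = 4 := by simp
    rw [h2] at h1
    have h3 : π.eval s = 0 := by
      rcases mul_eq_zero.1 h1.symm with h | h
      · rcases mul_eq_zero.1 h with h | h
        · have h4 : (4 : PowerSeries ℂ) ≠ 0 := by
            intro h
            have := congrArg PowerSeries.constantCoeff h
            rw [map_ofNat, map_zero] at this
            norm_num at this
          exact absurd h h4
        · exact h
      · exact h
    exact ⟨h3, by rw [ev1 s hs]; exact h3⟩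
  have hfac : ∀ f : (PowerSeries ℂ)[X], (∀ s : PowerSeries ℂ, s * s = 1 → f.eval s = 0) →
      ∃ w, f = (X ^ 2 - 1) * w := by
    intro f hf
    obtain ⟨g, hg⟩ := dvd_iff_isRoot.2 (show f.IsRoot 1 from hf 1 (by ring))
    have h1 := hf (-1) (by ring)
    rw [hg, eval_mul] at h1
    have h2 : (X - C (1 : PowerSeries ℂ)).eval (-1) ≠ 0 := by
      simp only [eval_sub, eval_X, eval_C]
      intro h
      have := congrArg PowerSeries.constantCoeff h
      rw [map_sub, map_neg, map_one, map_zero] at this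
      norm_num at this
    obtain ⟨w, hw⟩ := dvd_iff_isRoot.2 (show g.IsRoot (-1) from (mul_eq_zero.1 h1).resolve_left h2)
    refine ⟨w, ?_⟩
    rw [hg, hw]
    simp only [C_neg, C_1]
    ring
  obtain ⟨w, hw⟩ := hfac π fun s hs => (hroot s hs).1
  obtain ⟨w', hw'⟩ := hfac π' fun s hs => (hroot s hs).2
  have hX2 : (X ^ 2 - 1 : (PowerSeries ℂ)[X]) ≠ 0 := by
    intro h
    have := congrArg (fun p : (PowerSeries ℂ)[X] => p.coeff 2) h
    simp [coeff_one] at this
  have hX2d : (X ^ 2 - 1 : (PowerSeries ℂ)[X]).natDegree = 2 := by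
    have : (X ^ 2 - 1 : (PowerSeries ℂ)[X]) = X ^ 2 - C 1 := by rw [C_1]
    rw [this]
    exact natDegree_X_pow_sub_C
  have hMI' : C (Rps a) * (κ * w' - κ' * w) = 4 * w * w' := by
    apply mul_left_cancel₀ (mul_ne_zero hX2 hX2)
    rw [hw, hw'] at hMI
    linear_combination hMI
  have hw0 : w ≠ 0 := by
    rintro rfl
    rw [mul_zero] at hw
    exact hπ0 hw
  have hdw : w.natDegree = 2 * e := by
    have h1 := natDegree_mul hX2 hw0
    rw [← hw, hdπ, hX2d] at h1
    omega
  have hdw' : w'.natDegree ≤ 2 * e := by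
    by_cases h : w' = 0
    · rw [h]; simp
    · have h1 := natDegree_mul hX2 h
      rw [← hw', hX2d] at h1
      omega
  -- pass to an algebraically closed field
  set Ω := AlgebraicClosure (FractionRing (PowerSeries ℂ)) with hΩ
  set f : PowerSeries ℂ →+* Ω :=
    (algebraMap (FractionRing (PowerSeries ℂ)) Ω).comp (algebraMap _ _) with hf
  have hfinj : Function.Injective f :=
    (algebraMap (FractionRing (PowerSeries ℂ)) Ω).injective.comp
      (IsFractionRing.injective (PowerSeries ℂ) (FractionRing (PowerSeries ℂ)))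
  have hcopr : IsCoprime (w.map f) (κ.map f) := by
    rw [Polynomial.isCoprime_iff_aeval_ne_zero_of_isAlgClosed Ω Ω]
    intro ξ
    by_contra hcon
    push Not at hcon
    obtain ⟨h1, h2⟩ := hcon
    rw [aeval_def, eval₂_map] at h1 h2
    have hid : (algebraMap Ω Ω).comp f = f := by
      ext x
      rfl
    rw [hid] at h1 h2
    have h3 : π.eval₂ f ξ = 0 := by rw [hw, eval₂_mul, h1, mul_zero]
    have h4 : (kapR (Aps a) (Bps a) P (e + 1)).eval₂ f ξ = 0 := by
      rw [hπ, eval₂_sub, eval₂_mul, h2, mul_zero, zero_sub, neg_eq_zero] at h3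
      exact h3
    rw [hκ] at h2
    exact no_common f hfinj (by rw [hA0]; norm_num) (by rw [hB0]; norm_num) hQ hQd hQt hPt hcop ξ
      h2 h4
  have hρ : f (Rps a) ≠ 0 := by
    intro h
    have : Rps a = 0 := hfinj (by rw [h, map_zero])
    rw [this, map_zero] at hR0
    exact zero_ne_one hR0
  have hdvd : w.map f ∣ w'.map f := by
    have h1 := congrArg (Polynomial.map f) hMI'
    simp only [Polynomial.map_mul, Polynomial.map_sub, map_C, Polynomial.map_ofNat] at h1
    have h2 : w.map f ∣ κ.map f * (C (f (Rps a)) * w'.map f) := by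
      refine ⟨4 * w'.map f + C (f (Rps a)) * κ'.map f, ?_⟩
      linear_combination h1
    have h3 := hcopr.dvd_of_dvd_mul_left h2
    have h4 : C (f (Rps a))⁻¹ * (C (f (Rps a)) * w'.map f) = w'.map f := by
      rw [← mul_assoc, ← C_mul, inv_mul_cancel₀ hρ, C_1, one_mul]
    rw [← h4]
    exact h3.mul_left _
  obtain ⟨t, ht⟩ := hdvd
  have hwf0 : w.map f ≠ 0 := (Polynomial.map_ne_zero_iff hfinj).2 hw0
  obtain ⟨c, hc⟩ : ∃ c : Ω, t = C c := by
    by_cases ht0 : t = 0
    · exact ⟨0, by rw [ht0, C_0]⟩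
    · have h1 := natDegree_mul hwf0 ht0
      rw [← ht, natDegree_map_eq_of_injective hfinj, natDegree_map_eq_of_injective hfinj] at h1
      exact ⟨t.coeff 0, eq_C_of_natDegree_le_zero (by omega)⟩
  have hπc : π'.map f = C c * π.map f := by
    rw [hw', hw, Polynomial.map_mul, Polynomial.map_mul, ht, hc]
    ring
  have k1 := congrArg (fun p : Polynomial Ω => p.coeff 0) hπc
  have k2 := congrArg (fun p : Polynomial Ω => p.coeff (2 * (e + 1))) hπc
  simp only [coeff_map, coeff_C_mul] at k1 k2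
  have r1 : π'.coeff 0 = π.coeff (2 * (e + 1)) := by
    rw [hπ', coeff_reflect, revAt_zero]
  have r2 : π'.coeff (2 * (e + 1)) = π.coeff 0 := by
    rw [hπ', coeff_reflect, revAt_le le_rfl, Nat.sub_self]
  rw [r1] at k1
  rw [r2] at k2
  have hft : f (π.coeff (2 * (e + 1))) ≠ 0 := by
    intro h
    exact hnet (hfinj (by rw [h, map_zero]))
  have hc2 : (c - 1) * (c + 1) = 0 := by
    apply mul_right_cancel₀ hft
    rw [zero_mul]
    linear_combination -k1 - c * k2
  refine ⟨?_, hπ0⟩
  rcases mul_eq_zero.1 hc2 with h | h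
  · exfalso
    have hc1 : c = 1 := by linear_combination h
    rw [hc1, one_mul] at k1
    have h1 := congrArg PowerSeries.constantCoeff (hfinj k1)
    rw [ctop, hb0] at h1
    have h2 : ((1 : ℂ) / 2) ^ (e + 1) ≠ 0 := pow_ne_zero _ (by norm_num)
    apply h2
    linear_combination h1 / 2
  · have hc1 : c = -1 := by linear_combination h
    rw [hc1] at hπc
    apply Polynomial.map_injective f hfinj
    rw [hπc, Polynomial.map_neg, C_neg, C_1]
    ring

end Vale.Agent.P097.H779.Disc
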