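import Vale.Agent.P097.H779.Disc.RD

/-! # P097 / H779 / Disc : sums `∑ z^i G_i` of power series -/

set_option linter.all false

namespace Vale.Agent.P097.H779.Disc

open PowerSeries

variable {L : Type*} [Field L]

/-- `∑ z^i G_i` -/
noncomputable def T (G : ℕ → PowerSeries L) : PowerSeries L :=
  PowerSeries.mk fun n => ∑ i ∈ Finset.range (n + 1), coeff (n - i) (G i)

theorem coeff_T (G : ℕ → PowerSeries L) (n : ℕ) :
    coeff n (T G) = ∑ i ∈ Finset.range (n + 1), coeff (n - i) (G i) := by
  rw [T, coeff_mk]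

theorem coeff_T' (G : ℕ → PowerSeries L) {n m : ℕ} (h : n < m) :
    coeff n (T G) = coeff n (∑ i ∈ Finset.range m, X ^ i * G i) := by
  rw [coeff_T, map_sum]
  have h1 : Finset.range (n + 1) ⊆ Finset.range m := by
    intro i hi
    rw [Finset.mem_range] at hi ⊢
    omega
  rw [← Finset.sum_subset h1]
  · refine Finset.sum_congr rfl fun i hi => ?_
    rw [Finset.mem_range] at hi
    rw [coeff_X_pow_mul', if_pos (by omega)]
  · intro i _ hi
    rw [Finset.mem_range] at hi
    rw [coeff_X_pow_mul', if_neg (by omega)]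

theorem T_add (G H : ℕ → PowerSeries L) : T (fun i => G i + H i) = T G + T H := by
  ext n
  rw [map_add, coeff_T, coeff_T, coeff_T, ← Finset.sum_add_distrib]
  exact Finset.sum_congr rfl fun i _ => by rw [map_add]

theorem T_zero : T (fun _ => (0 : PowerSeries L)) = 0 := by
  ext n
  rw [coeff_T]
  simp

theorem T_neg (G : ℕ → PowerSeries L) : T (fun i => - G i) = - T G := by
  ext n
  rw [map_neg, coeff_T, coeff_T, ← Finset.sum_neg_distrib]
  exact Finset.sum_congr rfl fun i _ => by rw [map_neg]

theorem T_mul (G H : ℕ → PowerSeries L) :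
    T G * T H = T (fun n => ∑ ij ∈ Finset.HasAntidiagonal.antidiagonal n, G ij.1 * H ij.2) := by
  ext n
  have h1 : coeff n (T G * T H) = coeff n ((∑ i ∈ Finset.range (n + 1), X ^ i * G i) *
      (∑ i ∈ Finset.range (n + 1), X ^ i * H i)) := by
    rw [coeff_mul, coeff_mul]
    refine Finset.sum_congr rfl fun p hp => ?_
    rw [Finset.HasAntidiagonal.mem_antidiagonal] at hp
    rw [coeff_T' G (show p.1 < n + 1 by omega), coeff_T' H (show p.2 < n + 1 by omega)]
  rw [h1, coeff_T' _ (Nat.lt_succ_self n), Finset.sum_mul_sum, map_sum, map_sum]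
  simp_rw [map_sum]
  -- both sides are sums over pairs
  have hL : ∀ i j : ℕ, coeff n (X ^ i * G i * (X ^ j * H j)) =
      if i + j ≤ n then coeff (n - (i + j)) (G i * H j) else 0 := by
    intro i j
    rw [show X ^ i * G i * (X ^ j * H j) = X ^ (i + j) * (G i * H j) by ring, coeff_X_pow_mul']
  simp_rw [hL]
  have hR : ∀ m ∈ Finset.range (n + 1), coeff n (X ^ m * ∑ ij ∈ Finset.HasAntidiagonal.antidiagonal m,
      G ij.1 * H ij.2) = ∑ ij ∈ Finset.HasAntidiagonal.antidiagonal m, coeff (n - (ij.1 + ij.2)) (G ij.1 * H ij.2) := by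
    intro m hm
    rw [Finset.mem_range] at hm
    rw [coeff_X_pow_mul', if_pos (by omega), map_sum]
    refine Finset.sum_congr rfl fun ij hij => ?_
    rw [Finset.HasAntidiagonal.mem_antidiagonal] at hij
    rw [hij]
  rw [Nat.succ_eq_add_one, Finset.sum_congr rfl hR, ← Finset.sum_product', Finset.sum_ite, Finset.sum_const_zero,
    add_zero, Finset.sum_sigma']
  refine Finset.sum_nbij' (fun p => ⟨p.1 + p.2, p⟩) (fun s => s.2) ?_ ?_ ?_ ?_ ?_
  · intro p hp
    simp only [Finset.mem_filter, Finset.mem_product, Finset.mem_range] at hp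
    simp only [Finset.mem_sigma, Finset.mem_range, Finset.HasAntidiagonal.mem_antidiagonal]
    exact ⟨by omega, trivial⟩
  · rintro ⟨m, p⟩ hp
    simp only [Finset.mem_sigma, Finset.mem_range, Finset.HasAntidiagonal.mem_antidiagonal] at hp
    simp only [Finset.mem_filter, Finset.mem_product, Finset.mem_range]
    omega
  · intro p hp
    rfl
  · rintro ⟨m, p⟩ hp
    simp only [Finset.mem_sigma, Finset.mem_range, Finset.HasAntidiagonal.mem_antidiagonal] at hp
    simp only [hp.2]
  · intro p hp
    rfl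

/-- `z d/dz` -/
noncomputable def Ez (f : PowerSeries L) : PowerSeries L := PowerSeries.mk fun n => (n : L) * coeff n f

theorem coeff_Ez (f : PowerSeries L) (n : ℕ) : coeff n (Ez f) = (n : L) * coeff n f := by
  rw [Ez, coeff_mk]

theorem Ez_add (f g : PowerSeries L) : Ez (f + g) = Ez f + Ez g := by
  ext n
  rw [map_add, coeff_Ez, coeff_Ez, coeff_Ez, map_add, mul_add]

theorem Ez_mul (f g : PowerSeries L) : Ez (f * g) = Ez f * g + f * Ez g := by
  ext n
  rw [map_add, coeff_Ez, coeff_mul, coeff_mul, coeff_mul, Finset.mul_sum,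
    ← Finset.sum_add_distrib]
  refine Finset.sum_congr rfl fun p hp => ?_
  rw [Finset.HasAntidiagonal.mem_antidiagonal] at hp
  rw [coeff_Ez, coeff_Ez, ← hp]
  push_cast
  ring

theorem Ez_C (c : L) : Ez (C c) = 0 := by
  ext n
  rw [coeff_Ez, coeff_C, map_zero]
  split_ifs with h
  · rw [h]; simp
  · simp

theorem Ez_T (G : ℕ → PowerSeries L) : Ez (T G) = T (fun i => (i : PowerSeries L) * G i + Ez (G i)) := by
  ext n
  rw [coeff_Ez, coeff_T, coeff_T, Finset.mul_sum]
  refine Finset.sum_congr rfl fun i hi => ?_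
  rw [Finset.mem_range] at hi
  rw [map_add, coeff_Ez]
  have h1 : (i : PowerSeries L) = C (i : L) := by rw [map_natCast]
  rw [h1, coeff_C_mul, ← add_mul]
  congr 1
  have : (n : L) = ((i + (n - i) : ℕ) : L) := by rw [Nat.add_sub_cancel' (by omega)]
  rw [this]
  push_cast
  ring

/-- a coefficientwise operator -/
noncomputable def Cw (φ : L → L) (f : PowerSeries L) : PowerSeries L :=
  PowerSeries.mk fun n => φ (coeff n f)

theorem coeff_Cw (φ : L → L) (f : PowerSeries L) (n : ℕ) : coeff n (Cw φ f) = φ (coeff n f) := by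
  rw [Cw, coeff_mk]

section der

variable {φ : L → L} (hadd : ∀ a b, φ (a + b) = φ a + φ b)
    (hmul : ∀ a b, φ (a * b) = φ a * b + a * φ b)

include hadd in
theorem der_zero : φ 0 = 0 := by
  have := hadd 0 0
  simpa using this

include hadd in
theorem der_sum {ι : Type*} (s : Finset ι) (f : ι → L) : φ (∑ i ∈ s, f i) = ∑ i ∈ s, φ (f i) := by
  classical
  induction s using Finset.induction_on with
  | empty => simp [der_zero hadd]
  | insert i s hi ih => rw [Finset.sum_insert hi, Finset.sum_insert hi, hadd, ih]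

include hadd in
theorem Cw_add (f g : PowerSeries L) : Cw φ (f + g) = Cw φ f + Cw φ g := by
  ext n
  rw [map_add, coeff_Cw, coeff_Cw, coeff_Cw, map_add, hadd]

include hadd hmul in
theorem Cw_mul (f g : PowerSeries L) : Cw φ (f * g) = Cw φ f * g + f * Cw φ g := by
  ext n
  rw [map_add, coeff_Cw, coeff_mul, coeff_mul, coeff_mul, der_sum hadd,
    ← Finset.sum_add_distrib]
  refine Finset.sum_congr rfl fun p hp => ?_
  rw [coeff_Cw, coeff_Cw, hmul]

include hadd in
theorem Cw_T (G : ℕ → PowerSeries L) : Cw φ (T G) = T (fun i => Cw φ (G i)) := by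
  ext n
  rw [coeff_Cw, coeff_T, coeff_T, der_sum hadd]
  exact Finset.sum_congr rfl fun i _ => by rw [coeff_Cw]

end der

end Vale.Agent.P097.H779.Disc
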